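import Vale.Agent.P281.H308.TM.FFin
import Vale.Agent.P281.H383.TM.Forms
import Vale.Agent.P281.H638.TM.PolF
import Vale.Agent.P281.H364.TM.OrdT
import Vale.Agent.P281.H180.TM.Exc
import Vale.Agent.P281.H89.TM.Th
import Vale.Agent.P281.H364.Gen.Crit
import Vale.Agent.P281.H150.Gen.Img

/-! P281, project T-M (helper308): T8, `FlagStmt`. -/

open scoped Manifold ContDiff Topology
open Set Filter Metric Vale.Agent.P281 Vale.Agent.P272.K
open Vale.Agent.P281.MF Vale.Agent.P281.ISO Vale.Agent.P281.ELL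
open Vale.Agent.P281.H713 Vale.Agent.P281.H713.TZ Vale.Agent.P281.H64.Gen

set_option linter.all false

noncomputable section

namespace Vale.Agent.P281.H308.TM

theorem formsN : FormsN := by
  intro p X Y _ _ _ _ _ _ _ _ _ _ f Γ hf hc hΓf hΓp hΓr
  obtain ⟨S₀, hS₀, h⟩ := H383.TM.hasFormsN (p := p) (E₀ := Cm 1) (by simp) f Γ hf hc
    ⟨hΓf, hΓp, fun D => by
      obtain ⟨r, h1, h2, -⟩ := hΓr D
      exact ⟨r, h1, h2⟩⟩ (fun D hD => by
      obtain ⟨r, h1, -, h3⟩ := hΓr D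
      rw [h1] at hD
      exact absurd hD (not_lt.2 (by exact_mod_cast h3)))
  refine ⟨S₀, hS₀, fun S hS hsub => ?_⟩
  obtain ⟨h1, -, -, h2⟩ := h S hS hsub
  exact ⟨h1, h2⟩

/-- **T8** -/
theorem flagStmt : H740.TM.FlagStmt :=
  flag_of (H364.crit H150.Gen.img) formsN H89.TM.thStmt H364.TM.coef
    (H638.TM.pol H364.TM.coef H364.TM.ord H180.TM.excStmt)

end Vale.Agent.P281.H308.TM
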