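import Vale.Agent.P281.H713.TZ.Lift

/-! P281, project T-M (helper308), flag core: the distribution tangent to the fibres at a generic
point. -/

open scoped Manifold ContDiff Topology
open Set Filter Metric Vale.Agent.P281 Vale.Agent.P272.K
open Vale.Agent.P281.MF Vale.Agent.P281.ISO Vale.Agent.P281.ELL Vale.Agent.P281.H713
open Vale.Agent.P281.H713.TZ

set_option linter.all false

noncomputable section

namespace Vale.Agent.P281.H308.TM

variable {n p : ℕ} {E₀ : Type} [NormedAddCommGroup E₀] [NormedSpace ℂ E₀] [FiniteDimensional ℂ E₀]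

/-- the projection and the section of `LinPart` for the columns `J` -/
structure Frm (J : Fin p → Fin n) (P : Cm n →L[ℂ] E₀) (s : E₀ →L[ℂ] Cm n) : Prop where
  ps : ∀ v, P (s v) = v
  pj : ∀ b, P (Pi.single (J b) 1) = 0
  cr : ∀ A : Cm n →L[ℂ] Cm p, mnr A J ≠ 0 → Function.Injective (A.prod P) ∧
      ∀ v, A (s v) = ∑ b, (∑ k, s v k * (mnr A (Function.update J b k) / mnr A J)) •
        A (Pi.single (J b) 1)

/-- Cramer's distribution, times the minor -/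
def Lhat (A : Cm n →L[ℂ] Cm p) (J : Fin p → Fin n) (s : E₀ →L[ℂ] Cm n) : E₀ →L[ℂ] Cm n :=
  mnr A J • s - ∑ b, ∑ k, mnr A (Function.update J b k) •
    (((ContinuousLinearMap.proj k : Cm n →L[ℂ] ℂ).comp s).smulRight (Pi.single (J b) 1 : Cm n))

theorem Lhat_apply (A : Cm n →L[ℂ] Cm p) (J : Fin p → Fin n) (s : E₀ →L[ℂ] Cm n) (v : E₀) :
    Lhat A J s v = mnr A J • s v - ∑ b, (∑ k, s v k * mnr A (Function.update J b k)) •
      (Pi.single (J b) 1 : Cm n) := by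
  simp only [Lhat, sub_apply, sum_apply, smul_apply, ContinuousLinearMap.smulRight_apply,
    ContinuousLinearMap.comp_apply, ContinuousLinearMap.proj_apply]
  congr 1
  refine Finset.sum_congr rfl fun b _ => ?_
  rw [Finset.sum_smul]
  refine Finset.sum_congr rfl fun k _ => ?_
  rw [smul_smul, mul_comm]

/-- the distribution `L` at a generic point of `{e = 0}` -/
theorem dist {F : Cm n → Cm p} {c₀ : Cm n} (hF : AnalyticAt ℂ F c₀) {e : Cm n → ℂ}
    (he : AnalyticAt ℂ e c₀) (hne : ∀ᶠ c in 𝓝 c₀, ∃ᶠ c' in 𝓝 c, e c' ≠ 0)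
    (hord : ∀ κ : Fin p → Fin n, (∀ᶠ c in 𝓝 c₀, mnr (fderiv ℂ F c) κ = 0) ∨
      ∃ (k : ℕ) (u : Cm n → ℂ), AnalyticAt ℂ u c₀ ∧ u c₀ ≠ 0 ∧
        ∀ᶠ c in 𝓝 c₀, mnr (fderiv ℂ F c) κ = e c ^ k * u c)
    (hnz : ∃ κ, ¬ ∀ᶠ c in 𝓝 c₀, mnr (fderiv ℂ F c) κ = 0)
    (P : (Fin p → Fin n) → (Cm n →L[ℂ] E₀)) (s : (Fin p → Fin n) → (E₀ →L[ℂ] Cm n))
    (hPs : ∀ J, Function.Injective J → Frm J (P J) (s J)) :
    ∃ (J : Fin p → Fin n) (k : ℕ) (u : Cm n → ℂ) (L : Cm n → E₀ →L[ℂ] Cm n),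
      Function.Injective J ∧ AnalyticAt ℂ u c₀ ∧ u c₀ ≠ 0 ∧
      (∀ᶠ c in 𝓝 c₀, mnr (fderiv ℂ F c) J = e c ^ k * u c) ∧
      AnalyticAt ℂ L c₀ ∧ (∀ c, (P J).comp (L c) = ContinuousLinearMap.id ℂ E₀) ∧
      (∀ᶠ c in 𝓝 c₀, mnr (fderiv ℂ F c) J • L c = Lhat (fderiv ℂ F c) J (s J)) ∧
      (∀ᶠ c in 𝓝 c₀, (fderiv ℂ F c).comp (L c) = 0) ∧
      (∀ᶠ c in 𝓝 c₀, e c ≠ 0 → mnr (fderiv ℂ F c) J ≠ 0) := by
  classical
  have hgen' : ∀ κ : Fin p → Fin n, ∃ (k : ℕ) (u : Cm n → ℂ),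
      ¬ (∀ᶠ c in 𝓝 c₀, mnr (fderiv ℂ F c) κ = 0) →
      AnalyticAt ℂ u c₀ ∧ u c₀ ≠ 0 ∧ ∀ᶠ c in 𝓝 c₀, mnr (fderiv ℂ F c) κ = e c ^ k * u c := by
    intro κ
    rcases hord κ with h | ⟨k, u, h⟩
    · exact ⟨0, 0, fun h' => absurd h h'⟩
    · exact ⟨k, u, fun _ => h⟩
  choose k u hku using hgen'
  obtain ⟨J₀, hJ₀⟩ := hnz
  obtain ⟨J, hJ, hJmin⟩ : ∃ J, (¬ ∀ᶠ c in 𝓝 c₀, mnr (fderiv ℂ F c) J = 0) ∧
      ∀ J', (¬ ∀ᶠ c in 𝓝 c₀, mnr (fderiv ℂ F c) J' = 0) → k J ≤ k J' := by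
    obtain ⟨J, hJm, hJ2⟩ := (Finset.univ.filter fun J : Fin p → Fin n =>
      ¬ ∀ᶠ c in 𝓝 c₀, mnr (fderiv ℂ F c) J = 0).exists_min_image
      k ⟨J₀, Finset.mem_filter.2 ⟨Finset.mem_univ _, hJ₀⟩⟩
    exact ⟨J, (Finset.mem_filter.1 hJm).2, fun J' h =>
      hJ2 J' (Finset.mem_filter.2 ⟨Finset.mem_univ _, h⟩)⟩
  obtain ⟨huJ, huJ0, hbJ⟩ := hku J hJ
  have hmJ : ∀ᶠ c in 𝓝 c₀, e c ≠ 0 → mnr (fderiv ℂ F c) J ≠ 0 := by
    filter_upwards [hbJ, huJ.continuousAt.eventually_ne huJ0] with c h1 h2 h3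
    rw [h1]
    exact mul_ne_zero (pow_ne_zero _ h3) h2
  have hJinj : Function.Injective J := by
    obtain ⟨c, hc1, hc2⟩ := (hne.self_of_nhds.and_eventually hmJ).exists
    exact mnr_not_inj _ (hc2 hc1)
  have hfr := hPs J hJinj
  -- the ratios
  have hHex : ∀ κ, ∃ H : Cm n → ℂ, AnalyticAt ℂ H c₀ ∧
      ∀ᶠ c in 𝓝 c₀, mnr (fderiv ℂ F c) κ = H c * mnr (fderiv ℂ F c) J := by
    intro κ
    by_cases hκ : ∀ᶠ c in 𝓝 c₀, mnr (fderiv ℂ F c) κ = 0
    · exact ⟨0, analyticAt_const, hκ.mono fun c hc => by rw [hc]; simp⟩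
    · obtain ⟨huκ, huκ0, hbκ⟩ := hku κ hκ
      have hle := hJmin κ hκ
      refine ⟨fun c => e c ^ (k κ - k J) * u κ c * (u J c)⁻¹,
        ((he.pow _).mul huκ).mul (huJ.inv huJ0), ?_⟩
      filter_upwards [hbκ, hbJ, huJ.continuousAt.eventually_ne huJ0] with c h1 h2 h3
      rw [h1, h2]
      have h7 : e c ^ k κ = e c ^ (k κ - k J) * e c ^ k J := by
        rw [← pow_add, Nat.sub_add_cancel hle]
      rw [h7]
      field_simp
  choose H hH hHe using hHex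
  set Mb : Fin p → Fin n → (E₀ →L[ℂ] Cm n) := fun b k =>
    ((ContinuousLinearMap.proj k : Cm n →L[ℂ] ℂ).comp (s J)).smulRight (Pi.single (J b) 1) with hMb
  set L : Cm n → E₀ →L[ℂ] Cm n := fun c => s J - ∑ b, ∑ k, H (Function.update J b k) c • Mb b k
    with hL
  have hLa : AnalyticAt ℂ L c₀ := by
    refine analyticAt_const.sub ?_
    refine Finset.analyticAt_fun_sum _ fun b _ => ?_
    refine Finset.analyticAt_fun_sum _ fun k _ => ?_
    exact (hH _).smul analyticAt_const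
  have hLv : ∀ c v, L c v = s J v - ∑ b, (∑ k, s J v k * H (Function.update J b k) c) •
      (Pi.single (J b) 1 : Cm n) := by
    intro c v
    simp only [hL, hMb, sub_apply, sum_apply, smul_apply, ContinuousLinearMap.smulRight_apply,
      ContinuousLinearMap.comp_apply, ContinuousLinearMap.proj_apply]
    congr 1
    refine Finset.sum_congr rfl fun b _ => ?_
    rw [Finset.sum_smul]
    refine Finset.sum_congr rfl fun k _ => ?_
    rw [smul_smul, mul_comm]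
  have hPL : ∀ c, (P J).comp (L c) = ContinuousLinearMap.id ℂ E₀ := by
    intro c
    refine ContinuousLinearMap.ext fun v => ?_
    rw [ContinuousLinearMap.comp_apply, hLv, map_sub, map_sum, hfr.ps]
    simp only [map_smul, hfr.pj, smul_zero, Finset.sum_const_zero, sub_zero]
    rfl
  have hHall : ∀ᶠ c in 𝓝 c₀, ∀ κ, mnr (fderiv ℂ F c) κ = H κ c * mnr (fderiv ℂ F c) J :=
    Filter.eventually_all.2 hHe
  have hhat : ∀ᶠ c in 𝓝 c₀, mnr (fderiv ℂ F c) J • L c = Lhat (fderiv ℂ F c) J (s J) := by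
    filter_upwards [hHall] with c hc
    refine ContinuousLinearMap.ext fun v => ?_
    rw [Lhat_apply, smul_apply, hLv, smul_sub, Finset.smul_sum]
    congr 1
    refine Finset.sum_congr rfl fun b _ => ?_
    rw [smul_smul, Finset.mul_sum]
    congr 1
    refine Finset.sum_congr rfl fun k _ => ?_
    rw [hc (Function.update J b k)]
    ring
  have hAL : ∀ᶠ c in 𝓝 c₀, e c ≠ 0 → (fderiv ℂ F c).comp (L c) = 0 := by
    filter_upwards [hHall, hmJ] with c h1 h2 hc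
    have h3 := h2 hc
    refine ContinuousLinearMap.ext fun v => ?_
    rw [ContinuousLinearMap.comp_apply, hLv, map_sub, map_sum, (hfr.cr _ h3).2 v]
    simp only [map_smul]
    rw [sub_eq_zero.2]
    · rfl
    · refine Finset.sum_congr rfl fun b _ => ?_
      congr 1
      refine Finset.sum_congr rfl fun k _ => ?_
      rw [h1 (Function.update J b k), mul_div_assoc, div_self h3, mul_one]
  have hFd : AnalyticAt ℂ (fderiv ℂ F) c₀ := hF.fderiv
  have hAL' : ∀ᶠ c in 𝓝 c₀, (fderiv ℂ F c).comp (L c) = 0 := by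
    filter_upwards [hne, hAL.eventually_nhds, hLa.eventually_analyticAt,
      hFd.eventually_analyticAt] with c h1 h2 h3 h4
    by_contra hcon
    have h5 : ContinuousAt (fun c => (fderiv ℂ F c).comp (L c)) c :=
      h4.continuousAt.clm_comp h3.continuousAt
    obtain ⟨c', h6, h7, h8⟩ := (h1.and_eventually (h2.and (h5.eventually_ne hcon))).exists
    exact h8 (h7 h6)
  exact ⟨J, k J, u J, L, hJinj, huJ, huJ0, hbJ, hLa, hPL, hhat, hAL', hmJ⟩

end Vale.Agent.P281.H308.TM
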