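import Vale.Agent.P281.H308.TM.Flag

/-! P281, project T-M (helper308), flag core: linear algebra of the flag, the curve in the slice. -/

open scoped Manifold ContDiff Topology
open Set Filter Metric Vale.Agent.P281 Vale.Agent.P272.K
open Vale.Agent.P281.MF Vale.Agent.P281.ISO Vale.Agent.P281.ELL Vale.Agent.P281.H713
open Vale.Agent.P281.H713.TZ

set_option linter.all false

noncomputable section

namespace Vale.Agent.P281.H308.TM

section Alg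

variable {n p q : ℕ} {E₁ : Type} [NormedAddCommGroup E₁] [NormedSpace ℂ E₁]
  [FiniteDimensional ℂ E₁]

theorem exists_split (e₁ : Cm n ≃L[ℂ] (Cm q × E₁)) (e₂ : Cm q ≃L[ℂ] (Cm p × ℂ)) :
    ∃ (κ : (Cm q × E₁) ≃L[ℂ] (Cm p × (ℂ × E₁))) (e₀ : Cm n ≃L[ℂ] (Cm p × (ℂ × E₁))),
      (∀ z v, κ (z, v) = ((e₂ z).1, ((e₂ z).2, v))) ∧ ∀ v, e₀ v = κ (e₁ v) :=
  ⟨(e₂.prodCongr (ContinuousLinearEquiv.refl ℂ E₁)).trans
    (ContinuousLinearEquiv.prodAssoc ℂ (Cm p) ℂ E₁),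
    e₁.trans ((e₂.prodCongr (ContinuousLinearEquiv.refl ℂ E₁)).trans
    (ContinuousLinearEquiv.prodAssoc ℂ (Cm p) ℂ E₁)), fun z v => rfl, fun v => rfl⟩

theorem clm_det_conj {V W : Type} [NormedAddCommGroup V] [NormedSpace ℂ V] [NormedAddCommGroup W]
    [NormedSpace ℂ W] (κ : V ≃L[ℂ] W) (B : V →L[ℂ] V) :
    (((κ : V →L[ℂ] W).comp B).comp (κ.symm : W →L[ℂ] V)).det = B.det :=
  LinearMap.det_conj (B : V →ₗ[ℂ] V) κ.toLinearEquiv

/-- the endomorphism of `V` with the rows `A`, `P` -/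
theorem jp_endo {V V₁ V₂ : Type} [NormedAddCommGroup V] [NormedSpace ℂ V]
    [NormedAddCommGroup V₁] [NormedSpace ℂ V₁] [NormedAddCommGroup V₂] [NormedSpace ℂ V₂]
    [FiniteDimensional ℂ V] [FiniteDimensional ℂ V₁] [FiniteDimensional ℂ V₂]
    (e : V ≃L[ℂ] (V₁ × V₂)) (A : V →L[ℂ] V₁) (P : V →L[ℂ] V₂) :
    ∃ M : V →L[ℂ] V, (∀ z, e (M z) = (A z, P z)) ∧ JP e A P = M.det := by
  refine ⟨(e.symm : (V₁ × V₂) →L[ℂ] V).comp (A.prod P), fun z => ?_, ?_⟩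
  · exact e.apply_symm_apply _
  · unfold JP
    rw [← clm_det_conj e]
    congr 1
    refine ContinuousLinearMap.ext fun w => ?_
    exact (e.apply_symm_apply _).symm

theorem jp_conj {V V₁ V₂ W₁ W₂ : Type} [NormedAddCommGroup V] [NormedSpace ℂ V]
    [NormedAddCommGroup V₁] [NormedSpace ℂ V₁] [NormedAddCommGroup V₂] [NormedSpace ℂ V₂]
    [NormedAddCommGroup W₁] [NormedSpace ℂ W₁] [NormedAddCommGroup W₂] [NormedSpace ℂ W₂]
    [FiniteDimensional ℂ V] [FiniteDimensional ℂ V₁] [FiniteDimensional ℂ V₂]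
    [FiniteDimensional ℂ W₁] [FiniteDimensional ℂ W₂]
    (e : V ≃L[ℂ] (V₁ × V₂)) (κ : (V₁ × V₂) ≃L[ℂ] (W₁ × W₂)) (e₀ : V ≃L[ℂ] (W₁ × W₂))
    (he : ∀ v, e₀ v = κ (e v)) {A : V →L[ℂ] V₁} {P : V →L[ℂ] V₂}
    {B : V →L[ℂ] W₁} {R : V →L[ℂ] W₂} (h : ∀ z, κ (A z, P z) = (B z, R z)) :
    JP e₀ B R = JP e A P := by
  have h0 : e₀ = e.trans κ := by
    ext v
    · rw [he]; rfl
    · rw [he]; rfl
  subst h0
  unfold JP
  rw [← clm_det_conj κ]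
  congr 1
  refine ContinuousLinearMap.ext fun w => ?_
  exact (h _).symm

theorem jp_mul (e₁ : Cm n ≃L[ℂ] (Cm q × E₁)) (e₂ : Cm q ≃L[ℂ] (Cm p × ℂ))
    {κ : (Cm q × E₁) ≃L[ℂ] (Cm p × (ℂ × E₁))} {e₀ : Cm n ≃L[ℂ] (Cm p × (ℂ × E₁))}
    (hκ : ∀ z v, κ (z, v) = ((e₂ z).1, ((e₂ z).2, v))) (he₀ : ∀ v, e₀ v = κ (e₁ v))
    (Ag : Cm n →L[ℂ] Cm q)
    (P₁ : Cm n →L[ℂ] E₁) (Ah : Cm q →L[ℂ] Cm p) (PZ : Cm q →L[ℂ] ℂ) :
    JP e₀ (Ah.comp Ag) ((PZ.comp Ag).prod P₁) = JP e₂ Ah PZ * JP e₁ Ag P₁ := by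
  obtain ⟨M, hMe, h1⟩ := jp_endo e₂ Ah PZ
  have h3 := JP_left e₁ Ag P₁ M (ContinuousLinearMap.id ℂ E₁)
  have h4 : (ContinuousLinearMap.id ℂ E₁).det = 1 := by simp [ContinuousLinearMap.det]
  have h5 : (ContinuousLinearMap.id ℂ E₁).comp P₁ = P₁ := ContinuousLinearMap.id_comp P₁
  rw [h4, mul_one, h5] at h3
  rw [h1, ← h3]
  exact jp_conj e₁ κ e₀ he₀ (A := M.comp Ag) (P := P₁) (fun z => by
    rw [hκ, ContinuousLinearMap.comp_apply, hMe]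
    rfl)

theorem jp_frame (e₀ : Cm n ≃L[ℂ] (Cm p × (ℂ × E₁))) {A : Cm n →L[ℂ] Cm p}
    {P : Cm n →L[ℂ] (ℂ × E₁)} {L : (ℂ × E₁) →L[ℂ] Cm n}
    (hPL : P.comp L = ContinuousLinearMap.id ℂ (ℂ × E₁)) (hAL : A.comp L = 0)
    (hinj : Function.Injective (A.prod P)) {P' : Cm n →L[ℂ] E₁} {L' : E₁ →L[ℂ] Cm n}
    (hPL' : P'.comp L' = ContinuousLinearMap.id ℂ E₁) (hAL' : A.comp L' = 0)
    {ρ : Cm n →L[ℂ] ℂ} {b : ℂ × E₁} (hρb : ρ (L b) = 1) (hρL : ρ.comp L' = 0) :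
    JP e₀ A P = (Tm P P' L L' b).det * JP e₀ A (ρ.prod P') := by
  have a1 : ∀ v, P (L v) = v := fun v => congrArg (fun T : (ℂ × E₁) →L[ℂ] (ℂ × E₁) => T v) hPL
  have a2 : ∀ v, A (L v) = 0 := fun v => congrArg (fun T : (ℂ × E₁) →L[ℂ] Cm p => T v) hAL
  have a3 : ∀ v, P' (L' v) = v := fun v => congrArg (fun T : E₁ →L[ℂ] E₁ => T v) hPL'
  have a4 : ∀ v, A (L' v) = 0 := fun v => congrArg (fun T : E₁ →L[ℂ] Cm p => T v) hAL'
  have a5 : ∀ v, ρ (L' v) = 0 := fun v => congrArg (fun T : E₁ →L[ℂ] ℂ => T v) hρL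
  set t : (ℂ × E₁) →L[ℂ] Cm n := (ContinuousLinearMap.fst ℂ ℂ E₁).smulRight (L b) + L'.comp
    (ContinuousLinearMap.snd ℂ ℂ E₁ - (ContinuousLinearMap.fst ℂ ℂ E₁).smulRight (P' (L b)))
    with ht
  have hta : ∀ s v, t (s, v) = s • L b + L' (v - s • P' (L b)) := fun s v => rfl
  have h1 : ∀ w, A (t w) = 0 := by
    rintro ⟨s, v⟩
    rw [hta, map_add, map_smul, a2, a4, smul_zero, add_zero]
  have h2 : ∀ w, (ρ.prod P') (t w) = w := by
    rintro ⟨s, v⟩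
    refine Prod.ext ?_ ?_
    · show ρ (t (s, v)) = s
      rw [hta, map_add, map_smul, hρb, a5, add_zero, smul_eq_mul, mul_one]
    · show P' (t (s, v)) = v
      rw [hta, map_add, map_smul, a3]
      abel
  have h3 : ∀ w, P (t w) = Tm P P' L L' b w := by
    rintro ⟨s, v⟩
    rw [hta, Tm_apply, map_add, map_smul, a1]
  have h4 : ∀ w, t w = L (((Tm P P' L L' b : (ℂ × E₁) →L[ℂ] (ℂ × E₁)) :
      (ℂ × E₁) →ₗ[ℂ] (ℂ × E₁)) w) := by
    intro w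
    refine hinj (Prod.ext ?_ ?_)
    · show A (t w) = A (L (Tm P P' L L' b w))
      rw [h1, a2]
    · show P (t w) = P (L (Tm P P' L L' b w))
      rw [a1, h3]
  exact JP_frame e₀ (A := A) (P := P) (P' := ρ.prod P') (t := L) (t' := t) a2 a1 h2 h4

theorem Tm_cont {P : Cm n →L[ℂ] (ℂ × E₁)} {P' : Cm n →L[ℂ] E₁}
    {L : Cm n → (ℂ × E₁) →L[ℂ] Cm n} {L' : Cm n → E₁ →L[ℂ] Cm n} {c₀ : Cm n}
    (hL : ContinuousAt L c₀) (hL' : ContinuousAt L' c₀) (b : ℂ × E₁) :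
    ContinuousAt (fun c => (Tm P P' (L c) (L' c) b).det) c₀ := by
  have h2 : ContinuousAt (fun c => Tm P P' (L c) (L' c) b) c₀ := by
    unfold Tm
    refine continuousAt_const.add ?_
    refine (continuousAt_const.clm_comp hL').clm_comp (continuousAt_const.sub ?_)
    have h3 : ContinuousAt (fun c => P' (L c b)) c₀ :=
      P'.continuous.continuousAt.comp (hL.clm_apply continuousAt_const)
    have h4 : ContinuousAt (fun v : E₁ => (ContinuousLinearMap.fst ℂ ℂ E₁).smulRight v)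
        (P' (L c₀ b)) :=
      (ContinuousLinearMap.smulRightL ℂ (ℂ × E₁) E₁
        (ContinuousLinearMap.fst ℂ ℂ E₁)).continuous.continuousAt
    exact ContinuousAt.comp (g := fun v : E₁ => (ContinuousLinearMap.fst ℂ ℂ E₁).smulRight v)
      (f := fun c => P' (L c b)) h4 h3
  exact (contDiff_det (V := ℂ × E₁)).continuous.continuousAt.comp h2

end Alg

section Curve

variable {n p q : ℕ} {E₀ : Type} [NormedAddCommGroup E₀] [NormedSpace ℂ E₀] [FiniteDimensional ℂ E₀]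

/-- the curve in a slice of `F`, on which a component of `G` is injective -/
theorem curve {F : Cm n → Cm p} {G : Cm n → Cm q} {L : Cm n → E₀ →L[ℂ] Cm n}
    {P : Cm n →L[ℂ] E₀} {Q : E₀ → Cm n} {c : Cm n} {r : ℝ} {W : Set (Cm n)} (hr : 0 < r)
    (hQ1 : Q (P c) = c) (hQ : ∀ v ∈ ball (P c) r, ContDiffAt ℂ ω Q v ∧ Q v ∈ W ∧
      F (Q v) = F c ∧ P (Q v) = v)
    (hQd : ∀ v ∈ ball (P c) r, HasFDerivAt Q (L (Q v)) v) {b : E₀} {R₀ M : ℝ} (hR₀ : 0 < R₀)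
    (hRb : R₀ * ‖b‖ < r) (hM : 0 ≤ M) (hMR : M * R₀ ≤ 1 / 4) {a : Fin q}
    (hw : ∀ v ∈ ball (P c) r, DifferentiableAt ℂ G (Q v) ∧
      DifferentiableAt ℂ (fun c => fderiv ℂ G c (L c b) a) (Q v) ∧
      fderiv ℂ G (Q v) (L (Q v) b) a ≠ 0 ∧
      ‖fderiv ℂ (fun c => fderiv ℂ G c (L c b) a) (Q v) (L (Q v) b)‖ ≤
        M * ‖fderiv ℂ G (Q v) (L (Q v) b) a‖) :
    ∃ R : ℂ → Cm n, R 0 = c ∧ HasDerivAt R (L c b) 0 ∧
      InjOn (fun t => G (R t) a) (ball 0 R₀) ∧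
      ∀ t ∈ ball (0 : ℂ) R₀, ContDiffAt ℂ ω R t ∧ R t ∈ W ∧ F (R t) = F c := by
  have hmem : ∀ t ∈ closedBall (0 : ℂ) R₀, P c + t • b ∈ ball (P c) r := by
    intro t ht
    rw [mem_closedBall_zero_iff] at ht
    rw [mem_ball_iff_norm, add_sub_cancel_left, norm_smul]
    exact lt_of_le_of_lt (by gcongr) hRb
  have hRd : ∀ t ∈ closedBall (0 : ℂ) R₀, HasDerivAt (fun t : ℂ => Q (P c + t • b))
      (L (Q (P c + t • b)) b) t := by
    intro t ht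
    have h2 : HasDerivAt (fun t : ℂ => P c + t • b) b t := by
      have h3 := ((hasDerivAt_id t).smul_const b).const_add (P c)
      rw [one_smul] at h3
      exact h3
    exact (hQd _ (hmem t ht)).comp_hasDerivAt t h2
  have h00 : (0 : ℂ) ∈ closedBall (0 : ℂ) R₀ := mem_closedBall_self hR₀.le
  have hQ0 : Q (P c + (0 : ℂ) • b) = c := by rw [zero_smul, add_zero, hQ1]
  refine ⟨fun t => Q (P c + t • b), hQ0, ?_, ?_, ?_⟩
  · have h1 := hRd 0 h00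
    rw [hQ0] at h1
    exact h1
  · refine InjOn.mono ball_subset_closedBall (inj_of_log
      (χ := fun t => fderiv ℂ G (Q (P c + t • b)) (L (Q (P c + t • b)) b) a)
      (χ' := fun t => fderiv ℂ (fun c => fderiv ℂ G c (L c b) a) (Q (P c + t • b))
        (L (Q (P c + t • b)) b)) hM hR₀ hMR ?_ ?_ ?_ ?_)
    · intro t ht
      exact (hw _ (hmem t ht)).2.1.hasFDerivAt.comp_hasDerivAt t (hRd t ht)
    · intro t ht
      exact (hw _ (hmem t ht)).2.2.2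
    · intro t ht
      have h1 : HasDerivAt (fun t : ℂ => G (Q (P c + t • b)))
          (fderiv ℂ G (Q (P c + t • b)) (L (Q (P c + t • b)) b)) t :=
        (hw _ (hmem t ht)).1.hasFDerivAt.comp_hasDerivAt t (hRd t ht)
      exact (hasDerivAt_pi.1 h1) a
    · exact (hw _ (hmem 0 h00)).2.2.1
  · intro t ht
    have h1 := hmem t (ball_subset_closedBall ht)
    refine ⟨?_, (hQ _ h1).2.1, (hQ _ h1).2.2.1⟩
    have h2 : ContDiffAt ℂ ω (fun t : ℂ => P c + t • b) t :=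
      contDiffAt_const.add (contDiffAt_id.smul contDiffAt_const)
    exact ContDiffAt.comp (g := Q) t (hQ _ h1).1 h2

end Curve

end Vale.Agent.P281.H308.TM
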