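import Vale.Agent.P281.H308.TM.FBd0

/-! P281, project T-M (helper308), flag core: the bound of `t(f z) Ξ(g z) Θ z` on `X`, for
`g : X -> Z`, `h : Z -> Y`, `Ξ` a relative form of `h`, `Θ` a relative form of `g`. -/

open scoped Manifold ContDiff Topology
open Set Filter Metric Vale.Agent.P281 Vale.Agent.P272.K
open Vale.Agent.P281.MF Vale.Agent.P281.ISO Vale.Agent.P281.ELL Vale.Agent.P281.H713
open Vale.Agent.P281.H713.TZ

set_option linter.all false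

noncomputable section

namespace Vale.Agent.P281.H308.TM

section

variable {n p q : ℕ} {X Z Y : Type} [TopologicalSpace X] [ChartedSpace (Cm n) X]
  [IsManifold 𝓘(ℂ, Cm n) ω X] [TopologicalSpace Z] [ChartedSpace (Cm q) Z]
  [IsManifold 𝓘(ℂ, Cm q) ω Z] [TopologicalSpace Y] [ChartedSpace (Cm p) Y]
  [IsManifold 𝓘(ℂ, Cm p) ω Y]
variable {E₁ : Type} [NormedAddCommGroup E₁] [NormedSpace ℂ E₁] [FiniteDimensional ℂ E₁]

theorem dM_chain {f : X → Y} {g : X → Z} {h : Z → Y} (hfe : ∀ x, f x = h (g x)) {x : X}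
    (hg : HolM (Cm n) (Cm q) g x) (hh : HolM (Cm q) (Cm p) h (g x)) :
    dM (Cm n) (Cm p) f x = (dM (Cm q) (Cm p) h (g x)).comp (dM (Cm n) (Cm q) g x) := by
  have h1 : f = fun x => h (g x) := funext hfe
  rw [h1]
  exact mfderiv_comp x (ContMDiffAt.mdifferentiableAt hh (by simp))
    (ContMDiffAt.mdifferentiableAt hg (by simp))

/-- **the bound at the generic points, for a composite** -/
theorem bd_flag (hsl : SlicePart) (hlin : LinPart)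
    {f : X → Y} (hf : ∀ x, HolM (Cm n) (Cm p) f x) {g : X → Z} (hg : ∀ x, HolM (Cm n) (Cm q) g x)
    {h : Z → Y} (hh : ∀ z, HolM (Cm q) (Cm p) h z) (hfe : ∀ x, f x = h (g x))
    {S : Set Y} {T : Set Z}
    (hsub : ∀ x, f x ∉ S → Function.Surjective (dM (Cm n) (Cm p) f x))
    (hsubg : ∀ x, g x ∉ T → Function.Surjective (dM (Cm n) (Cm q) g x))
    (e₁ : Cm n ≃L[ℂ] (Cm q × E₁)) (e₂ : Cm q ≃L[ℂ] (Cm p × ℂ)) {N : ℕ}
    {𝒜 : Set (Set X)} {ℬ : Set (Set Z)} {Θ : X → ℂ} {Ξ : Z → ℂ}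
    (hΘ : BdF g T e₁ N 𝒜 Θ) (hΞ : BdF h S e₂ N ℬ Ξ)
    {x₀ : X} {y₀ : Y} {ζ₀ : Z} {y : X} (hy : y ∈ (chartAt (Cm n) x₀).source)
    (hy₀ : f y ∈ (chartAt (Cm p) y₀).source) (hζ₀ : g y ∈ (chartAt (Cm q) ζ₀).source)
    {t : Y → ℂ} {PX : X → ℂ} {a : (Fin N → Fin p → Fin n) → X → ℂ}
    (ha : ∀ I, HolV (Cm n) (a I) y)
    (hev : ∀ᶠ z in 𝓝 y, f z ∉ S → ∀ I,
      t (f z) * TL.minors (n := n) (p := p) N (id : X → X) f x₀ z I * PX z = a I z)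
    (hdn : Dense {x | f x ∉ S ∧ g x ∉ T})
    {F : Cm n → Cm p} (hFe : F = (fun z => chartAt (Cm p) y₀ (f z)) ∘ (chartAt (Cm n) x₀).symm)
    {G : Cm n → Cm q} (hGe : G = (fun z => chartAt (Cm q) ζ₀ (g z)) ∘ (chartAt (Cm n) x₀).symm)
    {c₀ : Cm n} (hc₀ : c₀ = chartAt (Cm n) x₀ y)
    {e : Cm n → ℂ} (he : AnalyticAt ℂ e c₀) (he0 : e c₀ = 0) (hde : fderiv ℂ e c₀ ≠ 0)
    (heS : ∀ᶠ c in 𝓝 c₀, e c = 0 → f ((chartAt (Cm n) x₀).symm c) ∈ S)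
    (hordF : ∀ κ : Fin p → Fin n, Ord1 e c₀ (fun c => mnr (fderiv ℂ F c) κ))
    (hordG : ∀ κ : Fin q → Fin n, Ord1 e c₀ (fun c => mnr (fderiv ℂ G c) κ))
    {P : (Fin p → Fin n) → (Cm n →L[ℂ] (ℂ × E₁))} {s : (Fin p → Fin n) → ((ℂ × E₁) →L[ℂ] Cm n)}
    (hPs : ∀ J, Function.Injective J → Frm J (P J) (s J))
    {P' : (Fin q → Fin n) → (Cm n →L[ℂ] E₁)} {s' : (Fin q → Fin n) → (E₁ →L[ℂ] Cm n)}
    (hPs' : ∀ J, Function.Injective J → Frm J (P' J) (s' J))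
    (hordL : ∀ (J : Fin p → Fin n) (j : Fin (Module.finrank ℂ (ℂ × E₁))) (i : Fin q),
      Ord1 e c₀ (fun c => fderiv ℂ G c (Lhat (fderiv ℂ F c) J (s J)
        (Module.finBasis ℂ (ℂ × E₁) j)) i))
    (hav : ∀ᶠ z in 𝓝 y, f z ∉ S → (∀ D ∈ ℬ, g z ∉ D) ∧ ∀ D ∈ 𝒜, z ∉ D) :
    ∃ C : ℝ, ∀ᶠ z in 𝓝 y, f z ∉ S → g z ∉ T →
      ‖t (f z) * (Ξ (g z) * Θ z) * PX z‖ ≤
        C * ‖jac (Cm n) (chartAt (Cm n) x₀ : X → Cm n) z ^ N‖ := by
  classical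
  set φ := chartAt (Cm n) x₀ with hφ
  set ψ := chartAt (Cm p) y₀ with hψ
  set χ := chartAt (Cm q) ζ₀ with hχ
  have hmem : φ ∈ IsManifold.maximalAtlas 𝓘(ℂ, Cm n) ω X := IsManifold.chart_mem_maximalAtlas _
  have hfs : ∀ᶠ z in 𝓝 y, f z ∈ ψ.source :=
    (hf y).continuousAt.eventually (ψ.open_source.mem_nhds hy₀)
  have hgs : ∀ᶠ z in 𝓝 y, g z ∈ χ.source :=
    (hg y).continuousAt.eventually (χ.open_source.mem_nhds hζ₀)
  have hsc : φ.symm c₀ = y := by rw [hc₀]; exact φ.left_inv hy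
  have hct : c₀ ∈ φ.target := by rw [hc₀]; exact φ.map_source hy
  have hφst : Tendsto φ.symm (𝓝 c₀) (𝓝 y) := by
    have := (φ.continuousAt_symm hct).tendsto
    rwa [hsc] at this
  have hφt : Tendsto φ (𝓝 y) (𝓝 c₀) := by
    have := (φ.continuousAt hy).tendsto
    rwa [← hc₀] at this
  have htgt : ∀ᶠ c in 𝓝 c₀, c ∈ φ.target := φ.open_target.mem_nhds hct
  have hψf : HolV (Cm n) (fun z => ψ (f z)) y :=
    HolV.comp (h := (ψ : Y → Cm p)) (HolV.chart hy₀) (hf y)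
  have hχg : HolV (Cm n) (fun z => χ (g z)) y :=
    HolV.comp (h := (χ : Z → Cm q)) (HolV.chart hζ₀) (hg y)
  have hF : AnalyticAt ℂ F c₀ := by
    rw [hFe, hc₀]
    exact (hψf.rep hy).analyticAt
  have hG : AnalyticAt ℂ G c₀ := by
    rw [hGe, hc₀]
    exact (hχg.rep hy).analyticAt
  have hdF : ∀ z ∈ φ.source, f z ∈ ψ.source → fderiv ℂ F (φ z) =
      (dV (Cm p) (ψ : Y → Cm p) (f z)).comp (dA (n := n) (p := p) f x₀ z) := by
    intro z hz hfz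
    rw [hFe]
    exact fderiv_dA hf (z₀ := x₀) (y₀ := y₀) hz hfz
  have hdG : ∀ z ∈ φ.source, g z ∈ χ.source → fderiv ℂ G (φ z) =
      (dV (Cm q) (χ : Z → Cm q) (g z)).comp (dA (n := n) (p := q) g x₀ z) := by
    intro z hz hgz
    rw [hGe]
    exact fderiv_dA hg (z₀ := x₀) (y₀ := ζ₀) hz hgz
  have hψi : ∀ w ∈ ψ.source, Function.Injective (dV (Cm p) (ψ : Y → Cm p) w) := fun w hw =>
    inj_of_det (jac_chart_ne_zero (x₀ := y₀) hw)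
  have hχi : ∀ w ∈ χ.source, Function.Injective (dV (Cm q) (χ : Z → Cm q) w) := fun w hw =>
    inj_of_det (jac_chart_ne_zero (x₀ := ζ₀) hw)
  have hφi : ∀ w ∈ φ.source, Function.Injective (dV (Cm n) (φ : X → Cm n) w) := fun w hw =>
    inj_of_det (jac_chart_ne_zero (x₀ := x₀) hw)
  have hch : ∀ z, dM (Cm n) (Cm p) f z =
      (dM (Cm q) (Cm p) h (g z)).comp (dM (Cm n) (Cm q) g z) := fun z =>
    dM_chain hfe (hg z) (hh (g z))
  have hchA : ∀ z, dA (n := n) (p := p) f x₀ z =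
      (dM (Cm q) (Cm p) h (g z)).comp (dA (n := n) (p := q) g x₀ z) := by
    intro z
    unfold dA
    rw [hch z]
    rfl
  -- density
  have hdc : ∀ᶠ c in 𝓝 c₀, ∃ᶠ c' in 𝓝 c, f (φ.symm c') ∉ S ∧ g (φ.symm c') ∉ T := by
    filter_upwards [htgt] with c h2
    have h3 : φ.symm c ∈ φ.source := φ.map_target h2
    have h4 := (mem_closure_iff_frequently.1 (hdn (φ.symm c))).and_eventually
      (φ.open_source.mem_nhds h3)
    have h5 : Tendsto φ (𝓝 (φ.symm c)) (𝓝 c) := by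
      have := (φ.continuousAt h3).tendsto
      rwa [φ.right_inv h2] at this
    refine h5.frequently (h4.mono ?_)
    rintro z ⟨h6, h7⟩
    rw [φ.left_inv h7]
    exact h6
  have hne : ∀ᶠ c in 𝓝 c₀, ∃ᶠ c' in 𝓝 c, e c' ≠ 0 := by
    filter_upwards [hdc, heS.eventually_nhds] with c h1 h2
    exact (h1.and_eventually h2).mono fun c' h3 h0 => h3.1.1 (h3.2 h0)
  have hsrc : ∀ᶠ c in 𝓝 c₀, φ.symm c ∈ φ.source ∧ φ (φ.symm c) = c ∧
      f (φ.symm c) ∈ ψ.source ∧ g (φ.symm c) ∈ χ.source := by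
    filter_upwards [htgt, hφst.eventually hfs, hφst.eventually hgs] with c h1 h2 h3
    exact ⟨φ.map_target h1, φ.right_inv h1, h2, h3⟩
  have hnzF : ∃ κ : Fin p → Fin n, ¬ ∀ᶠ c in 𝓝 c₀, mnr (fderiv ℂ F c) κ = 0 := by
    by_contra hcon
    push Not at hcon
    have h1 := Filter.eventually_all.2 hcon
    obtain ⟨c, ⟨h2, -⟩, h3, h4, h5, h6, -⟩ := (hdc.self_of_nhds.and_eventually
      (h1.and hsrc)).exists
    obtain ⟨κ, hκ⟩ := exists_mnr (A := fderiv ℂ F c) (by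
      rw [← h5, hdF _ h4 h6]
      have h7 := LinearMap.injective_iff_surjective.1 (hψi _ h6)
      rw [ContinuousLinearMap.coe_comp]
      refine Function.Surjective.comp (g := ⇑(dV (Cm p) (ψ : Y → Cm p) (f (φ.symm c)))) h7 ?_
      intro η
      obtain ⟨ξ, hξ⟩ := hsub _ h2 η
      refine ⟨dV (Cm n) (φ : X → Cm n) (φ.symm c) ξ, ?_⟩
      have h8 := congrArg (fun T : Cm n →L[ℂ] Cm p => T ξ) (dA_comp (f := f) (z₀ := x₀) h4)
      exact h8.trans hξ)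
    exact hκ (h3 κ)
  have hnzG : ∃ κ : Fin q → Fin n, ¬ ∀ᶠ c in 𝓝 c₀, mnr (fderiv ℂ G c) κ = 0 := by
    by_contra hcon
    push Not at hcon
    have h1 := Filter.eventually_all.2 hcon
    obtain ⟨c, ⟨-, h2⟩, h3, h4, h5, -, h6⟩ := (hdc.self_of_nhds.and_eventually
      (h1.and hsrc)).exists
    obtain ⟨κ, hκ⟩ := exists_mnr (A := fderiv ℂ G c) (by
      rw [← h5, hdG _ h4 h6]
      have h7 := LinearMap.injective_iff_surjective.1 (hχi _ h6)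
      rw [ContinuousLinearMap.coe_comp]
      refine Function.Surjective.comp (g := ⇑(dV (Cm q) (χ : Z → Cm q) (g (φ.symm c)))) h7 ?_
      intro η
      obtain ⟨ξ, hξ⟩ := hsubg _ h2 η
      refine ⟨dV (Cm n) (φ : X → Cm n) (φ.symm c) ξ, ?_⟩
      have h8 := congrArg (fun T : Cm n →L[ℂ] Cm q => T ξ) (dA_comp (f := g) (z₀ := x₀) h4)
      exact h8.trans hξ)
    exact hκ (h3 κ)
  -- the distributions
  obtain ⟨J, k, u, L, hJ, hu, hu0, hμ, hL, hPL, hhat, hFL, hmJ⟩ :=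
    dist hF he hne hordF hnzF P s hPs
  obtain ⟨J', k', u', L', hJ', hu', hu0', hμ', hL', hPL', hhat', hGL', hmJ'⟩ :=
    dist hG he hne hordG hnzG P' s' hPs'
  have hinj : ∀ᶠ c in 𝓝 c₀, e c ≠ 0 → Function.Injective ((fderiv ℂ F c).prod (P J)) := by
    filter_upwards [hmJ] with c h1 h2
    exact ((hPs J hJ).cr _ (h1 h2)).1
  have hinj' : ∀ᶠ c in 𝓝 c₀, e c ≠ 0 → Function.Injective ((fderiv ℂ G c).prod (P' J')) := by
    filter_upwards [hmJ'] with c h1 h2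
    exact ((hPs' J' hJ').cr _ (h1 h2)).1
  have hker : ∀ᶠ c in 𝓝 c₀, ∀ ξ, fderiv ℂ G c ξ = 0 → fderiv ℂ F c ξ = 0 := by
    filter_upwards [hsrc] with c h1 ξ hξ
    obtain ⟨h2, h3, h4, h5⟩ := h1
    rw [← h3, hdG _ h2 h5] at hξ
    have h6 : dA (n := n) (p := q) g x₀ (φ.symm c) ξ = 0 := hχi _ h5 (hξ.trans (map_zero _).symm)
    rw [← h3, hdF _ h2 h4, hchA]
    show dV (Cm p) (ψ : Y → Cm p) (f (φ.symm c)) (dM (Cm q) (Cm p) h (g (φ.symm c))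
      (dA (n := n) (p := q) g x₀ (φ.symm c) ξ)) = 0
    rw [h6, map_zero, map_zero]
  obtain ⟨κE, e₀, hκE, he₀⟩ := exists_split e₁ e₂
  have hFc : ∀ c, F c = ψ (f (φ.symm c)) := fun c => by rw [hFe]; rfl
  have hGc : ∀ c, G c = χ (g (φ.symm c)) := fun c => by rw [hGe]; rfl
  obtain ⟨b, i, M, hM, hw0, hwM, hTm⟩ := flag hsl e₀ hF hG he he0 hde
    (B := {c | f (φ.symm c) ∈ S}) heS (hdc.mono fun c h1 => h1.mono fun c' h2 => h2.1)
    (W₀ := {c | f (φ.symm c) ∈ ψ.source}) (hφst.eventually hfs) (by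
      intro c hc c' hc' hcc hcB
      have h1 : f (φ.symm c') = f (φ.symm c) := by
        rw [hFc, hFc] at hcc
        exact ψ.injOn hc' hc hcc
      show ¬ f (φ.symm c') ∈ S
      rw [h1]
      exact hcB) hu hu0 hμ hL hPL hhat hFL hinj hL' hPL' hGL' hinj' hker
    (fun j i => hordL J j i)
  set w : Cm n → ℂ := fun c => fderiv ℂ G c (L c b) i with hw
  have hwa : AnalyticAt ℂ w c₀ := by
    have h2 : AnalyticAt ℂ (fun c => fderiv ℂ G c (L c b)) c₀ :=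
      (hG.fderiv.contDiffAt.clm_apply (hL.contDiffAt.clm_apply contDiffAt_const)).analyticAt
    exact (ContinuousLinearMap.proj (R := ℂ) (φ := fun _ : Fin q => ℂ) i).analyticAt _ |>.comp h2
  have hall : ∀ᶠ c in 𝓝 c₀, c ∈ φ.target ∧ f (φ.symm c) ∈ ψ.source ∧ g (φ.symm c) ∈ χ.source ∧
      AnalyticAt ℂ F c ∧ AnalyticAt ℂ G c ∧ AnalyticAt ℂ w c ∧
      (fderiv ℂ F c).comp (L c) = 0 ∧ (fderiv ℂ G c).comp (L' c) = 0 ∧
      (f (φ.symm c) ∉ S → Function.Injective ((fderiv ℂ F c).prod (P J)) ∧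
        Function.Injective ((fderiv ℂ G c).prod (P' J')) ∧ w c ≠ 0 ∧
        ‖fderiv ℂ w c (L c b)‖ ≤ M * ‖w c‖ ∧
        (∀ D ∈ ℬ, g (φ.symm c) ∉ D) ∧ ∀ D ∈ 𝒜, φ.symm c ∉ D) := by
    filter_upwards [htgt, hφst.eventually hfs, hφst.eventually hgs, hF.eventually_analyticAt,
      hG.eventually_analyticAt, hwa.eventually_analyticAt, hFL, hGL', hinj, hinj', hw0, hwM,
      hφst.eventually hav, heS] with c a1 a2 a3 a4 a5 a6 a7 a8 a9 a10 a11 a12 a13 a14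
    refine ⟨a1, a2, a3, a4, a5, a6, a7, a8, fun a15 => ?_⟩
    have a16 : e c ≠ 0 := fun h0 => a15 (a14 h0)
    exact ⟨a9 a16, a10 a16, a11 a16, a12 a16, (a13 a15).1, (a13 a15).2⟩
  set W : Set (Cm n) := {c | c ∈ φ.target ∧ f (φ.symm c) ∈ ψ.source ∧ g (φ.symm c) ∈ χ.source ∧
      AnalyticAt ℂ F c ∧ AnalyticAt ℂ G c ∧ AnalyticAt ℂ w c ∧
      (fderiv ℂ F c).comp (L c) = 0 ∧ (fderiv ℂ G c).comp (L' c) = 0 ∧
      (f (φ.symm c) ∉ S → Function.Injective ((fderiv ℂ F c).prod (P J)) ∧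
        Function.Injective ((fderiv ℂ G c).prod (P' J')) ∧ w c ≠ 0 ∧
        ‖fderiv ℂ w c (L c b)‖ ≤ M * ‖w c‖ ∧
        (∀ D ∈ ℬ, g (φ.symm c) ∉ D) ∧ ∀ D ∈ 𝒜, φ.symm c ∉ D)} with hWd
  have hW : W ∈ 𝓝 c₀ := hall
  obtain ⟨r, hr, hslc⟩ := hsl (Cm n) (Cm p) (ℂ × E₁) e₀ F c₀ hF L hL (P J)
    (Eventually.of_forall hPL) hFL W hW
  obtain ⟨r', hr', hslc'⟩ := hsl (Cm n) (Cm q) E₁ e₁ G c₀ hG L' hL' (P' J')
    (Eventually.of_forall hPL') hGL' W hW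
  obtain ⟨R₀, hR₀, hRb, hMR⟩ : ∃ R₀ : ℝ, 0 < R₀ ∧ R₀ * ‖b‖ < r ∧ M * R₀ ≤ 1 / 4 := by
    refine ⟨min (r / (‖b‖ + 1)) (1 / (4 * (M + 1))), by positivity, ?_, ?_⟩
    · calc min (r / (‖b‖ + 1)) (1 / (4 * (M + 1))) * ‖b‖ ≤ r / (‖b‖ + 1) * ‖b‖ := by
            gcongr; exact min_le_left _ _
        _ < r := by
            rw [div_mul_eq_mul_div, div_lt_iff₀ (by positivity)]
            nlinarith [norm_nonneg b]
    · calc M * min (r / (‖b‖ + 1)) (1 / (4 * (M + 1))) ≤ M * (1 / (4 * (M + 1))) := by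
            gcongr; exact min_le_right _ _
        _ ≤ 1 / 4 := by
            rw [mul_one_div, div_le_div_iff₀ (by positivity) (by norm_num)]
            linarith
  obtain ⟨Ch, hCh⟩ := hΞ R₀ hR₀
  obtain ⟨Cg, hCg⟩ := hΘ r' hr'
  obtain ⟨hlin1, -⟩ := hlin n p (ℂ × E₁) e₀
  obtain ⟨cκ, hcκ⟩ := hlin1 (P J)
  obtain ⟨δ, hδ, hTδ⟩ : ∃ δ : ℝ, 0 < δ ∧ ∀ᶠ c in 𝓝 c₀,
      δ < ‖(Tm (P J) (P' J') (L c) (L' c) b).det‖ := by
    have h1 : 0 < ‖(Tm (P J) (P' J') (L c₀) (L' c₀) b).det‖ := norm_pos_iff.2 hTm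
    exact ⟨_, half_pos h1, (Tm_cont hL.continuousAt hL'.continuousAt b).norm.eventually_const_lt
      (half_lt_self h1)⟩
  have haev : ∀ᶠ z in 𝓝 y, ∀ I, ‖a I z‖ < ‖a I y‖ + 1 := by
    refine Filter.eventually_all.2 fun I => ?_
    exact (ha I).continuousAt.norm.eventually_lt_const (lt_add_one _)
  refine ⟨|Ch| * |Cg| * (1 / δ) ^ N *
    ∑ I : Fin N → Fin p → Fin n, ‖∏ r, cκ (I r)‖ * (‖a I y‖ + 1), ?_⟩
  filter_upwards [φ.open_source.mem_nhds hy, hfs, hgs, hφt.eventually hslc,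
    hφt.eventually hslc', hφt.eventually hall, hφt.eventually hTδ, hev, haev] with
    z hz hfz hgz hzs hzs' hzW hzδ hzev hza hzS hzT
  set c : Cm n := φ z with hc
  have hscz : φ.symm c = z := φ.left_inv hz
  have hfib : ∀ c' ∈ W, F c' = F c → f (φ.symm c') = f z := by
    intro c' hc' h1
    rw [hFc, hFc, hscz] at h1
    exact ψ.injOn hc'.2.1 hfz h1
  have hfibg : ∀ c' ∈ W, G c' = G c → g (φ.symm c') = g z := by
    intro c' hc' h1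
    rw [hGc, hGc, hscz] at h1
    exact χ.injOn hc'.2.2.1 hgz h1
  have hW8 : ∀ c' ∈ W, f (φ.symm c') = f z → f (φ.symm c') ∉ S := fun c' hc' h1 => by
    rw [h1]; exact hzS
  have hcW : c ∈ W := hzW
  -- the curve
  obtain ⟨Q, hQ1, hQ⟩ := hzs (fun c' hc' hcc =>
    (hc'.2.2.2.2.2.2.2.2 (hW8 c' hc' (hfib c' hc' hcc))).1)
  have hQd : ∀ v ∈ ball (P J c) r, HasFDerivAt Q (L (Q v)) v :=
    slice_deriv (F := F) (y := F c) (fun v hv => (hQ v hv).1)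
      (fun v hv => (hQ v hv).2.1.2.2.2.1.differentiableAt)
      (fun v hv => (hQ v hv).2.2.1) (fun v hv => (hQ v hv).2.2.2) hPL
      (fun v hv => (hQ v hv).2.1.2.2.2.2.2.2.1)
      (fun v hv => ((hQ v hv).2.1.2.2.2.2.2.2.2.2 (hW8 _ (hQ v hv).2.1
        (hfib _ (hQ v hv).2.1 (hQ v hv).2.2.1))).1)
  obtain ⟨R, hR0, hRd, hRinj, hR⟩ := curve (G := G) (a := i) hr hQ1 hQ hQd hR₀ hRb hM hMR
    (fun v hv => by
      have h1 := (hQ v hv).2.1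
      have h2 := h1.2.2.2.2.2.2.2.2 (hW8 _ h1 (hfib _ h1 (hQ v hv).2.2.1))
      exact ⟨h1.2.2.2.2.1.differentiableAt, h1.2.2.2.2.2.1.differentiableAt, h2.2.2.1,
        h2.2.2.2.1⟩)
  have hwc : w c ≠ 0 := (hcW.2.2.2.2.2.2.2.2 (by rw [hscz]; exact hzS)).2.2.1
  have keyh := curve_bd hg hCh hR₀ (x₀ := x₀) (ζ₀ := ζ₀) hz hgz (by rw [← hfe]; exact hzS) hGc
    hcW.2.2.2.2.1.differentiableAt hR0 hRd hRinj hwc (fun t ht => by
      have h1 := hfib _ (hR t ht).2.1 (hR t ht).2.2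
      refine ⟨(hR t ht).1, (hR t ht).2.1.1, ?_, fun D hD =>
        ((hR t ht).2.1.2.2.2.2.2.2.2.2 (hW8 _ (hR t ht).2.1 h1)).2.2.2.2.1 D hD⟩
      rw [← hfe, ← hfe]
      exact h1)
  obtain ⟨Q', hQ1', hQ'⟩ := hzs' (fun c' hc' hcc => by
    have h1 := hfibg c' hc' hcc
    have h2 : f (φ.symm c') = f z := by rw [hfe, hfe, h1]
    exact (hc'.2.2.2.2.2.2.2.2 (hW8 c' hc' h2)).2.1)
  have keyg := slice_bd hCg hr' (x₀ := x₀) hz hzT (P := P' J') (Q := Q') hQ1' (fun v hv => by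
      have h1 := hfibg _ (hQ' v hv).2.1 (hQ' v hv).2.2.1
      have h2 : f (φ.symm (Q' v)) = f z := by rw [hfe, hfe, h1]
      exact ⟨(hQ' v hv).1, (hQ' v hv).2.1.1, (hQ' v hv).2.2.2, h1, fun D hD =>
        ((hQ' v hv).2.1.2.2.2.2.2.2.2.2 (hW8 _ (hQ' v hv).2.1 h2)).2.2.2.2.2 D hD⟩)
  have hB1 : (dA (n := n) (p := q) g x₀ z).comp (dV (Cm n) (φ : X → Cm n) z) =
      dM (Cm n) (Cm q) g z := dA_comp hz
  have halg := bd_alg e₁ e₂ hκE he₀ (hchA z) (dV (Cm n) (φ : X → Cm n) z) (hψi _ hfz)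
    (hχi _ hgz) (hdF z hz hfz) (hdG z hz hgz) (hPL c) hcW.2.2.2.2.2.2.1
    (hcW.2.2.2.2.2.2.2.2 (by rw [hscz]; exact hzS)).1 (hPL' c) hcW.2.2.2.2.2.2.2.1
    (b := b) (i := i) hwc hδ hzδ
  rw [hB1] at halg
  refine bd_fin (hcκ _) (fun I => ?_) (fun I => (hza I).le) hδ keyh keyg halg
  have h1 := hzev hzS I
  rw [minors_eq] at h1
  exact h1

end

end Vale.Agent.P281.H308.TM
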