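import Vale.Agent.P281.H308.TM.FAlg
import Vale.Agent.P281.H64.Gen.Bd

/-! P281, project T-M (helper308), flag core: pieces of the bound at the generic points. -/

open scoped Manifold ContDiff Topology
open Set Filter Metric Vale.Agent.P281 Vale.Agent.P272.K
open Vale.Agent.P281.MF Vale.Agent.P281.ISO Vale.Agent.P281.ELL Vale.Agent.P281.H713
open Vale.Agent.P281.H713.TZ

set_option linter.all false

noncomputable section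

namespace Vale.Agent.P281.H308.TM

/-- the bound of `RelForm`, on balls of radius `r` -/
def BdR {n p : ℕ} {E₀ : Type} [NormedAddCommGroup E₀] [NormedSpace ℂ E₀] [FiniteDimensional ℂ E₀]
    {X Y : Type} [TopologicalSpace X] [ChartedSpace (Cm n) X]
    [TopologicalSpace Y] [ChartedSpace (Cm p) Y]
    (f : X → Y) (S : Set Y) (e₀ : Cm n ≃L[ℂ] (Cm p × E₀)) (N : ℕ) (𝒜 : Set (Set X))
    (Θ : X → ℂ) (r C : ℝ) : Prop :=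
  ∀ (v₀ : E₀) (Q : E₀ → X),
      (∀ v ∈ ball v₀ r, ContMDiffAt 𝓘(ℂ, E₀) 𝓘(ℂ, Cm n) ω Q v) → InjOn Q (ball v₀ r) →
      (∀ v ∈ ball v₀ r, f (Q v) = f (Q v₀)) → f (Q v₀) ∉ S →
      (∀ v ∈ ball v₀ r, ∀ D ∈ 𝒜, Q v ∉ D) → ∀ P : Cm n →L[ℂ] E₀,
      P.comp (mfderiv 𝓘(ℂ, E₀) 𝓘(ℂ, Cm n) Q v₀ : E₀ →L[ℂ] Cm n) =
        ContinuousLinearMap.id ℂ E₀ →
      ‖Θ (Q v₀)‖ ≤ C * ‖JP e₀ (dM (Cm n) (Cm p) f (Q v₀)) P ^ N‖

/-- the field `bound` of `RelForm` -/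
def BdF {n p : ℕ} {E₀ : Type} [NormedAddCommGroup E₀] [NormedSpace ℂ E₀] [FiniteDimensional ℂ E₀]
    {X Y : Type} [TopologicalSpace X] [ChartedSpace (Cm n) X]
    [TopologicalSpace Y] [ChartedSpace (Cm p) Y]
    (f : X → Y) (S : Set Y) (e₀ : Cm n ≃L[ℂ] (Cm p × E₀)) (N : ℕ) (𝒜 : Set (Set X))
    (Θ : X → ℂ) : Prop :=
  ∀ r : ℝ, 0 < r → ∃ C : ℝ, BdR f S e₀ N 𝒜 Θ r C

/-- `b` is a power of `e` times a unit near `c₀`, or zero near `c₀` -/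
def Ord1 {n : ℕ} (e : Cm n → ℂ) (c₀ : Cm n) (b : Cm n → ℂ) : Prop :=
  (∀ᶠ c in 𝓝 c₀, b c = 0) ∨ ∃ (k : ℕ) (u : Cm n → ℂ), AnalyticAt ℂ u c₀ ∧ u c₀ ≠ 0 ∧
    ∀ᶠ c in 𝓝 c₀, b c = e c ^ k * u c

section

variable {n p : ℕ} {X Y : Type} [TopologicalSpace X] [ChartedSpace (Cm n) X]
  [IsManifold 𝓘(ℂ, Cm n) ω X] [TopologicalSpace Y] [ChartedSpace (Cm p) Y]
  [IsManifold 𝓘(ℂ, Cm p) ω Y]
variable {E₀ : Type} [NormedAddCommGroup E₀] [NormedSpace ℂ E₀] [FiniteDimensional ℂ E₀]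

/-- the bound from a slice in a chart -/
theorem slice_bd {f : X → Y} {S : Set Y} {e₀ : Cm n ≃L[ℂ] (Cm p × E₀)} {N : ℕ} {𝒜 : Set (Set X)}
    {Θ : X → ℂ} {r C : ℝ} (h : BdR f S e₀ N 𝒜 Θ r C) (hr : 0 < r) {x₀ z : X}
    (hz : z ∈ (chartAt (Cm n) x₀).source) (hzS : f z ∉ S) {P : Cm n →L[ℂ] E₀} {Q : E₀ → Cm n}
    (hQ1 : Q (P (chartAt (Cm n) x₀ z)) = chartAt (Cm n) x₀ z)
    (hQ : ∀ v ∈ ball (P (chartAt (Cm n) x₀ z)) r, ContDiffAt ℂ ω Q v ∧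
      Q v ∈ (chartAt (Cm n) x₀).target ∧ P (Q v) = v ∧
      f ((chartAt (Cm n) x₀).symm (Q v)) = f z ∧
      ∀ D ∈ 𝒜, (chartAt (Cm n) x₀).symm (Q v) ∉ D) :
    ‖Θ z‖ ≤ C * ‖JP e₀ (dM (Cm n) (Cm p) f z)
      (P.comp (dV (Cm n) (chartAt (Cm n) x₀ : X → Cm n) z)) ^ N‖ := by
  set φ := chartAt (Cm n) x₀ with hφ
  have hmem : φ ∈ IsManifold.maximalAtlas 𝓘(ℂ, Cm n) ω X := IsManifold.chart_mem_maximalAtlas _
  set c : Cm n := φ z with hc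
  have hscz : φ.symm c = z := φ.left_inv hz
  set Qz : E₀ → X := fun v => φ.symm (Q v) with hQz
  have hQz1 : Qz (P c) = z := by
    show φ.symm (Q (P c)) = z
    rw [hQ1, hscz]
  have hQhol : ∀ v ∈ ball (P c) r, ContMDiffAt 𝓘(ℂ, E₀) 𝓘(ℂ, Cm n) ω Qz v := by
    intro v hv
    have g1 : ContMDiffAt 𝓘(ℂ, Cm n) 𝓘(ℂ, Cm n) ω φ.symm (Q v) :=
      contMDiffAt_symm_of_mem_maximalAtlas hmem (hQ v hv).2.1
    exact ContMDiffAt.comp (g := φ.symm) (f := Q) v g1 (hQ v hv).1.contMDiffAt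
  have hφR : ∀ v ∈ ball (P c) r, φ (Qz v) = Q v := fun v hv => φ.right_inv (hQ v hv).2.1
  have hQinj : InjOn Qz (ball (P c) r) := by
    intro v hv v' hv' hvv
    have g2 : Q v = Q v' := by
      rw [← hφR v hv, ← hφR v' hv']
      exact congrArg φ hvv
    rw [← (hQ v hv).2.2.1, ← (hQ v' hv').2.2.1, g2]
  have hv₁ : P c ∈ ball (P c) r := mem_ball_self hr
  set P₂ : Cm n →L[ℂ] E₀ := P.comp (dV (Cm n) (φ : X → Cm n) z) with hP₂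
  obtain ⟨D, hD⟩ : ∃ D : E₀ →L[ℂ] Cm n, D = mfderiv 𝓘(ℂ, E₀) 𝓘(ℂ, Cm n) Qz (P c) := ⟨_, rfl⟩
  have hdQ : P₂.comp D = ContinuousLinearMap.id ℂ E₀ := by
    have g1 : HolV (Cm n) (φ : X → Cm n) (Qz (P c)) := by
      rw [hQz1]
      exact HolV.chart hz
    have g2 : dV E₀ (fun v => φ (Qz v)) (P c) =
        (dV (Cm n) (φ : X → Cm n) (Qz (P c))).comp D := by
      have g6 := mfderiv_comp (P c) g1.mdiff ((hQhol _ hv₁).mdifferentiableAt (by simp))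
      subst hD
      exact g6
    have g3 : (fun v => P (φ (Qz v))) =ᶠ[𝓝 (P c)] fun v => v := by
      filter_upwards [isOpen_ball.mem_nhds hv₁] with v hv
      rw [hφR v hv, (hQ v hv).2.2.1]
    have g4 : dV E₀ (fun v => P (φ (Qz v))) (P c) =
        P.comp (dV E₀ (fun v => φ (Qz v)) (P c)) := by
      have g5 : HolV E₀ (fun v => φ (Qz v)) (P c) :=
        HolV.comp (h := (φ : X → Cm n)) g1 (hQhol _ hv₁)
      have g6 := dV_comp_contDiff (G := (P : Cm n → E₀)) (v := fun v => φ (Qz v))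
        (x := P c) P.contDiff.contDiffAt g5
      rw [P.fderiv] at g6
      exact g6
    have g5 : dV E₀ (fun v => P (φ (Qz v))) (P c) = ContinuousLinearMap.id ℂ E₀ := by
      unfold dV
      rw [g3.mfderiv_eq, mfderiv_eq_fderiv]
      exact fderiv_id'
    rw [hP₂, ContinuousLinearMap.comp_assoc, ← g5, g4, g2, hQz1]
  have keyg := h (P c) Qz hQhol hQinj (fun v hv => by
      rw [hQz1]
      exact (hQ v hv).2.2.2.1) (by rw [hQz1]; exact hzS) (fun v hv D hD =>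
        (hQ v hv).2.2.2.2 D hD) P₂ (by subst hD; exact hdQ)
  rw [hQz1] at keyg
  exact keyg

end

section

variable {n p q : ℕ} {X Z Y : Type} [TopologicalSpace X] [ChartedSpace (Cm n) X]
  [IsManifold 𝓘(ℂ, Cm n) ω X] [TopologicalSpace Z] [ChartedSpace (Cm q) Z]
  [IsManifold 𝓘(ℂ, Cm q) ω Z] [TopologicalSpace Y] [ChartedSpace (Cm p) Y]
  [IsManifold 𝓘(ℂ, Cm p) ω Y]

/-- the bound on `Z` from a curve in the chart of `X` -/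
theorem curve_bd {g : X → Z} (hg : ∀ x, HolM (Cm n) (Cm q) g x) {h : Z → Y} {S : Set Y}
    {e₂ : Cm q ≃L[ℂ] (Cm p × ℂ)} {N : ℕ} {ℬ : Set (Set Z)}
    {Ξ : Z → ℂ} {R₀ C : ℝ} (hb : BdR h S e₂ N ℬ Ξ R₀ C) (hR₀ : 0 < R₀) {x₀ z : X} {ζ₀ : Z}
    (hz : z ∈ (chartAt (Cm n) x₀).source) (hgz : g z ∈ (chartAt (Cm q) ζ₀).source)
    (hzS : h (g z) ∉ S) {G : Cm n → Cm q}
    (hGc : ∀ c, G c = chartAt (Cm q) ζ₀ (g ((chartAt (Cm n) x₀).symm c)))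
    (hGd : DifferentiableAt ℂ G (chartAt (Cm n) x₀ z)) {v : Cm n} {i : Fin q} {R : ℂ → Cm n}
    (hR0 : R 0 = chartAt (Cm n) x₀ z) (hRd : HasDerivAt R v 0)
    (hRinj : InjOn (fun t => G (R t) i) (ball 0 R₀))
    (hw : fderiv ℂ G (chartAt (Cm n) x₀ z) v i ≠ 0)
    (hR : ∀ t ∈ ball (0 : ℂ) R₀, ContDiffAt ℂ ω R t ∧ R t ∈ (chartAt (Cm n) x₀).target ∧
      h (g ((chartAt (Cm n) x₀).symm (R t))) = h (g z) ∧
      ∀ D ∈ ℬ, g ((chartAt (Cm n) x₀).symm (R t)) ∉ D) :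
    ‖Ξ (g z)‖ ≤ C * ‖JP e₂ (dM (Cm q) (Cm p) h (g z))
      ((fderiv ℂ G (chartAt (Cm n) x₀ z) v i)⁻¹ • (ContinuousLinearMap.proj (R := ℂ)
        (φ := fun _ : Fin q => ℂ) i).comp (dV (Cm q) (chartAt (Cm q) ζ₀ : Z → Cm q) (g z)))
          ^ N‖ := by
  set φ := chartAt (Cm n) x₀ with hφ
  set χ := chartAt (Cm q) ζ₀ with hχ
  have hmem : φ ∈ IsManifold.maximalAtlas 𝓘(ℂ, Cm n) ω X := IsManifold.chart_mem_maximalAtlas _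
  set c : Cm n := φ z with hc
  have hscz : φ.symm c = z := φ.left_inv hz
  set RZ : ℂ → Z := fun t => g (φ.symm (R t)) with hRZ
  have h00 : (0 : ℂ) ∈ ball (0 : ℂ) R₀ := mem_ball_self hR₀
  have hRZ0 : RZ 0 = g z := by
    show g (φ.symm (R 0)) = g z
    rw [hR0, hscz]
  have hRf : ∀ t ∈ ball (0 : ℂ) R₀, h (RZ t) = h (g z) := fun t ht => (hR t ht).2.2.1
  have hRZhol : ∀ t ∈ ball (0 : ℂ) R₀, ContMDiffAt 𝓘(ℂ, ℂ) 𝓘(ℂ, Cm q) ω RZ t := by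
    intro t ht
    have g1 : ContMDiffAt 𝓘(ℂ, Cm n) 𝓘(ℂ, Cm n) ω φ.symm (R t) :=
      contMDiffAt_symm_of_mem_maximalAtlas hmem (hR t ht).2.1
    have g2 : ContMDiffAt 𝓘(ℂ, ℂ) 𝓘(ℂ, Cm n) ω (fun t => φ.symm (R t)) t :=
      ContMDiffAt.comp (g := φ.symm) (f := R) t g1 (hR t ht).1.contMDiffAt
    exact ContMDiffAt.comp (g := g) (f := fun t => φ.symm (R t)) t (hg _) g2
  have hRZinj : InjOn RZ (ball (0 : ℂ) R₀) := by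
    intro t ht t' ht' htt
    refine hRinj ht ht' ?_
    show G (R t) i = G (R t') i
    rw [hGc, hGc]
    exact congrArg (fun w => χ w i) htt
  set PZ : Cm q →L[ℂ] ℂ := (fderiv ℂ G c v i)⁻¹ • (ContinuousLinearMap.proj (R := ℂ)
    (φ := fun _ : Fin q => ℂ) i).comp (dV (Cm q) (χ : Z → Cm q) (g z)) with hPZd
  have hPZa : ∀ ζ, PZ ζ = (fderiv ℂ G c v i)⁻¹ * dV (Cm q) (χ : Z → Cm q) (g z) ζ i :=
    fun ζ => rfl
  obtain ⟨D₁, hD₁⟩ : ∃ D₁ : ℂ →L[ℂ] Cm q, D₁ = mfderiv 𝓘(ℂ, ℂ) 𝓘(ℂ, Cm q) RZ 0 := ⟨_, rfl⟩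
  have hGR : HasFDerivAt (fun t => G (R t)) ((fderiv ℂ G c).comp
      ((ContinuousLinearMap.id ℂ ℂ).smulRight v)) 0 := by
    have g1 : HasFDerivAt G (fderiv ℂ G c) (R 0) := by
      rw [hR0]
      exact hGd.hasFDerivAt
    exact g1.comp (0 : ℂ) hRd.hasFDerivAt
  have hdR : PZ.comp D₁ = ContinuousLinearMap.id ℂ ℂ := by
    have g1 : HolV (Cm q) (χ : Z → Cm q) (RZ 0) := by
      rw [hRZ0]
      exact HolV.chart hgz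
    have g2 : dV ℂ (fun v => χ (RZ v)) 0 =
        (dV (Cm q) (χ : Z → Cm q) (RZ 0)).comp D₁ := by
      have g6 := mfderiv_comp (0 : ℂ) g1.mdiff ((hRZhol _ h00).mdifferentiableAt (by simp))
      subst hD₁
      exact g6
    have g3 : (fun v => χ (RZ v)) = fun t => G (R t) := by
      funext t
      rw [hGc]
    have g4 : dV ℂ (fun v => χ (RZ v)) 0 = (fderiv ℂ G c).comp
        ((ContinuousLinearMap.id ℂ ℂ).smulRight v) := by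
      rw [g3]
      unfold dV
      rw [mfderiv_eq_fderiv]
      exact hGR.fderiv
    refine ContinuousLinearMap.ext_ring ?_
    show PZ (D₁ 1) = 1
    have g5 : dV (Cm q) (χ : Z → Cm q) (g z) (D₁ 1) = fderiv ℂ G c v := by
      have g6 := congrArg (fun T : ℂ →L[ℂ] Cm q => T 1) (g2.symm.trans g4)
      rw [hRZ0] at g6
      refine g6.trans ?_
      show fderiv ℂ G c ((1 : ℂ) • v) = _
      rw [one_smul]
    rw [hPZa, g5]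
    exact inv_mul_cancel₀ hw
  have keyh := hb 0 RZ hRZhol hRZinj (fun t ht => by rw [hRf t ht, hRf 0 h00])
    (by rw [hRf 0 h00]; exact hzS) (fun t ht D hD => (hR t ht).2.2.2 D hD) PZ
    (by subst hD₁; exact hdR)
  rw [hRZ0] at keyh
  exact keyh

end

section

variable {n p q : ℕ} {E₁ : Type} [NormedAddCommGroup E₁] [NormedSpace ℂ E₁]
  [FiniteDimensional ℂ E₁]

/-- comparison of the determinants at a point -/
theorem bd_alg (e₁ : Cm n ≃L[ℂ] (Cm q × E₁)) (e₂ : Cm q ≃L[ℂ] (Cm p × ℂ))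
    {κ : (Cm q × E₁) ≃L[ℂ] (Cm p × (ℂ × E₁))} {e₀ : Cm n ≃L[ℂ] (Cm p × (ℂ × E₁))}
    (hκ : ∀ z v, κ (z, v) = ((e₂ z).1, ((e₂ z).2, v))) (he₀ : ∀ v, e₀ v = κ (e₁ v))
    {A : Cm n →L[ℂ] Cm p} {B : Cm n →L[ℂ] Cm q} {Ah : Cm q →L[ℂ] Cm p} (hAB : A = Ah.comp B)
    {Vp : Cm p →L[ℂ] Cm p} {Vq : Cm q →L[ℂ] Cm q} (Vn : Cm n →L[ℂ] Cm n)
    (hVp : Function.Injective Vp) (hVq : Function.Injective Vq)
    {dF : Cm n →L[ℂ] Cm p} {dG : Cm n →L[ℂ] Cm q} (hdF : dF = Vp.comp A) (hdG : dG = Vq.comp B)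
    {P : Cm n →L[ℂ] (ℂ × E₁)} {L : (ℂ × E₁) →L[ℂ] Cm n}
    (hPL : P.comp L = ContinuousLinearMap.id ℂ (ℂ × E₁)) (hFL : dF.comp L = 0)
    (hinj : Function.Injective (dF.prod P)) {P' : Cm n →L[ℂ] E₁} {L' : E₁ →L[ℂ] Cm n}
    (hPL' : P'.comp L' = ContinuousLinearMap.id ℂ E₁) (hGL : dG.comp L' = 0) {b : ℂ × E₁}
    {i : Fin q} (hw : dG (L b) i ≠ 0) {δ : ℝ} (hδ : 0 < δ)
    (hTδ : δ < ‖(Tm P P' L L' b).det‖) :
    ‖JP e₂ Ah ((dG (L b) i)⁻¹ • (ContinuousLinearMap.proj (R := ℂ)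
      (φ := fun _ : Fin q => ℂ) i).comp Vq)‖ * ‖JP e₁ (B.comp Vn) (P'.comp Vn)‖ ≤
      1 / δ * ‖JP e₀ A P‖ * ‖Vn.det‖ := by
  set PZ : Cm q →L[ℂ] ℂ := (dG (L b) i)⁻¹ • (ContinuousLinearMap.proj (R := ℂ)
      (φ := fun _ : Fin q => ℂ) i).comp Vq with hPZ
  set ρ : Cm n →L[ℂ] ℂ := PZ.comp B with hρ
  have hρa : ∀ ξ, ρ ξ = (dG (L b) i)⁻¹ * dG ξ i := by
    intro ξ
    have h1 : dG ξ = Vq (B ξ) := by rw [hdG]; rfl
    rw [h1]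
    rfl
  have hρb : ρ (L b) = 1 := by
    rw [hρa]
    exact inv_mul_cancel₀ hw
  have hGLc : ∀ v, dG (L' v) = 0 := fun v => congrArg (fun T : E₁ →L[ℂ] Cm q => T v) hGL
  have hFLc : ∀ v, dF (L v) = 0 := fun v => congrArg (fun T : (ℂ × E₁) →L[ℂ] Cm p => T v) hFL
  have hρL : ρ.comp L' = 0 := by
    refine ContinuousLinearMap.ext fun v => ?_
    show ρ (L' v) = 0
    rw [hρa, hGLc]
    simp
  have hAL : A.comp L = 0 := by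
    refine ContinuousLinearMap.ext fun v => hVp ?_
    have h1 := hFLc v
    rw [hdF] at h1
    exact h1.trans (map_zero _).symm
  have hAL' : A.comp L' = 0 := by
    refine ContinuousLinearMap.ext fun v => ?_
    have h1 := hGLc v
    rw [hdG] at h1
    have h2 : B (L' v) = 0 := hVq (h1.trans (map_zero _).symm)
    show A (L' v) = 0
    rw [hAB]
    show Ah (B (L' v)) = 0
    rw [h2, map_zero]
  have hinjA : Function.Injective (A.prod P) := by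
    intro ξ ξ' h1
    refine hinj (Prod.ext ?_ ?_)
    · show dF ξ = dF ξ'
      rw [hdF]
      show Vp (A ξ) = Vp (A ξ')
      rw [show A ξ = A ξ' from congrArg Prod.fst h1]
    · show P ξ = P ξ'
      exact congrArg Prod.snd h1
  have hfr := jp_frame e₀ hPL hAL hinjA hPL' hAL' hρb hρL
  have hmul := jp_mul e₁ e₂ hκ he₀ (B.comp Vn) (P'.comp Vn) Ah PZ
  have hcmp := JP_comp e₀ A (ρ.prod P') Vn
  have hA1 : A.comp Vn = Ah.comp (B.comp Vn) := by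
    rw [hAB]
    rfl
  have hB1 : (ρ.prod P').comp Vn = (PZ.comp (B.comp Vn)).prod (P'.comp Vn) := rfl
  rw [hA1, hB1, hmul] at hcmp
  rw [← norm_mul, hcmp, norm_mul]
  have hBA : ‖JP e₀ A (ρ.prod P')‖ ≤ 1 / δ * ‖JP e₀ A P‖ := by
    rw [hfr, norm_mul]
    have h1 : δ * ‖JP e₀ A (ρ.prod P')‖ ≤ ‖(Tm P P' L L' b).det‖ * ‖JP e₀ A (ρ.prod P')‖ := by
      gcongr
    calc ‖JP e₀ A (ρ.prod P')‖ = 1 / δ * (δ * ‖JP e₀ A (ρ.prod P')‖) := by field_simp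
      _ ≤ 1 / δ * (‖(Tm P P' L L' b).det‖ * ‖JP e₀ A (ρ.prod P')‖) := by gcongr
  gcongr

/-- the final estimate -/
theorem bd_fin {N : ℕ} {cκ : (Fin p → Fin n) → ℂ} {A : Cm n →L[ℂ] Cm p} {t₀ PX₀ Ξ₀ Θ₀ jA j₁ j₂ jc : ℂ}
    {a₀ : (Fin N → Fin p → Fin n) → ℂ} {m : (Fin N → Fin p → Fin n) → ℝ}
    (hjA : jA = ∑ κ, cκ κ * mnr A κ) (hev : ∀ I, t₀ * (∏ r, mnr A (I r)) * PX₀ = a₀ I)
    (hm : ∀ I, ‖a₀ I‖ ≤ m I) {Ch Cg δ : ℝ} (hδ : 0 < δ)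
    (h1 : ‖Ξ₀‖ ≤ Ch * ‖j₂ ^ N‖) (h2 : ‖Θ₀‖ ≤ Cg * ‖j₁ ^ N‖)
    (h3 : ‖j₂‖ * ‖j₁‖ ≤ 1 / δ * ‖jA‖ * ‖jc‖) :
    ‖t₀ * (Ξ₀ * Θ₀) * PX₀‖ ≤ |Ch| * |Cg| * (1 / δ) ^ N *
      (∑ I : Fin N → Fin p → Fin n, ‖∏ r, cκ (I r)‖ * m I) * ‖jc ^ N‖ := by
  classical
  have k2 : t₀ * PX₀ * jA ^ N = ∑ I : Fin N → Fin p → Fin n, (∏ r, cκ (I r)) * a₀ I := by
    rw [hjA]
    have g1 : (∑ κ, cκ κ * mnr A κ) ^ N =
        ∑ I : Fin N → Fin p → Fin n, ∏ r, (cκ (I r) * mnr A (I r)) := by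
      have g2 := Finset.prod_univ_sum (fun _ : Fin N => (Finset.univ : Finset (Fin p → Fin n)))
        (fun _ κ => cκ κ * mnr A κ)
      rw [Finset.prod_const, Finset.card_univ, Fintype.card_fin, Fintype.piFinset_univ] at g2
      exact g2
    rw [g1, Finset.mul_sum]
    refine Finset.sum_congr rfl fun I _ => ?_
    rw [← hev I, Finset.prod_mul_distrib]
    ring
  have k3 : ‖t₀ * PX₀ * jA ^ N‖ ≤ ∑ I : Fin N → Fin p → Fin n, ‖∏ r, cκ (I r)‖ * m I := by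
    rw [k2]
    refine (norm_sum_le _ _).trans (Finset.sum_le_sum fun I _ => ?_)
    rw [norm_mul]
    exact mul_le_mul_of_nonneg_left (hm I) (norm_nonneg _)
  have k4 : ‖j₂ ^ N‖ * ‖j₁ ^ N‖ ≤ (1 / δ) ^ N * ‖jA ^ N‖ * ‖jc ^ N‖ := by
    rw [norm_pow, norm_pow, norm_pow, norm_pow, ← mul_pow, ← mul_pow, ← mul_pow]
    gcongr
  calc ‖t₀ * (Ξ₀ * Θ₀) * PX₀‖ = ‖t₀ * PX₀‖ * (‖Ξ₀‖ * ‖Θ₀‖) := by
        rw [← norm_mul, ← norm_mul]; congr 1; ring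
    _ ≤ ‖t₀ * PX₀‖ * ((|Ch| * ‖j₂ ^ N‖) * (|Cg| * ‖j₁ ^ N‖)) := by
        have h1 : ‖Ξ₀‖ ≤ |Ch| * ‖j₂ ^ N‖ := h1.trans (by gcongr; exact le_abs_self _)
        have h2 : ‖Θ₀‖ ≤ |Cg| * ‖j₁ ^ N‖ := h2.trans (by gcongr; exact le_abs_self _)
        gcongr
    _ = |Ch| * |Cg| * ‖t₀ * PX₀‖ * (‖j₂ ^ N‖ * ‖j₁ ^ N‖) := by ring
    _ ≤ |Ch| * |Cg| * ‖t₀ * PX₀‖ * ((1 / δ) ^ N * ‖jA ^ N‖ * ‖jc ^ N‖) := by gcongr
    _ = |Ch| * |Cg| * (1 / δ) ^ N * ‖t₀ * PX₀ * jA ^ N‖ * ‖jc ^ N‖ := by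
        rw [norm_mul (t₀ * PX₀) (jA ^ N)]; ring
    _ ≤ |Ch| * |Cg| * (1 / δ) ^ N *
          (∑ I : Fin N → Fin p → Fin n, ‖∏ r, cκ (I r)‖ * m I) * ‖jc ^ N‖ := by
        gcongr

end

end Vale.Agent.P281.H308.TM
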