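import Vale.Agent.P281.H308.TM.FLift
import Vale.Agent.P281.H64.Gen.Main

/-! P281, project T-M (helper308), flag core: Campana's inequality from relative forms of a
composite `X → Z → Y` (adapted from `H64/Gen/Core.lean`). -/

open scoped Manifold ContDiff Topology
open Set Filter Metric Vale.Agent.P281 Vale.Agent.P272.K
open Vale.Agent.P281.MF Vale.Agent.P281.ISO Vale.Agent.P281.ELL Vale.Agent.P281.H713
open Vale.Agent.P281.H713.TZ Vale.Agent.P281.H64.Thin Vale.Agent.P281.H64.Gen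

set_option linter.all false

noncomputable section

namespace Vale.Agent.P281.H308.TM

section Rel2

variable {n p q : ℕ} {X Z Y : Type} [TopologicalSpace X] [ChartedSpace (Cm n) X]
  [IsManifold 𝓘(ℂ, Cm n) ω X] [TopologicalSpace Z] [ChartedSpace (Cm q) Z]
  [IsManifold 𝓘(ℂ, Cm q) ω Z] [TopologicalSpace Y] [ChartedSpace (Cm p) Y]
  [IsManifold 𝓘(ℂ, Cm p) ω Y]
variable {E₁ : Type} [NormedAddCommGroup E₁] [NormedSpace ℂ E₁] [FiniteDimensional ℂ E₁]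
variable {f : X → Y} {g : X → Z} {h : Z → Y} {S : Set Y} {T : Set Z}
    {e₁ : Cm n ≃L[ℂ] (Cm q × E₁)} {e₂ : Cm q ≃L[ℂ] (Cm p × ℂ)} {𝒜 : Set (Set X)}
    {ℬ : Set (Set Z)}

theorem BdF.mul {E₀ : Type} [NormedAddCommGroup E₀] [NormedSpace ℂ E₀] [FiniteDimensional ℂ E₀]
    {f : X → Y} {S : Set Y} {e₀ : Cm n ≃L[ℂ] (Cm p × E₀)} {𝒜 : Set (Set X)} {N N' : ℕ}
    {Θ Θ' : X → ℂ} (h : BdF f S e₀ N 𝒜 Θ) (h' : BdF f S e₀ N' 𝒜 Θ') :
    BdF f S e₀ (N + N') 𝒜 (fun x => Θ x * Θ' x) := by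
  intro r hr
  obtain ⟨C, hC⟩ := h r hr
  obtain ⟨C', hC'⟩ := h' r hr
  refine ⟨C * C', fun v₀ Q h1 h2 h3 h4 h5 P h6 => ?_⟩
  have h7 := hC v₀ Q h1 h2 h3 h4 h5 P h6
  have h8 := hC' v₀ Q h1 h2 h3 h4 h5 P h6
  have h9 := mul_le_mul h7 h8 (norm_nonneg _) ((norm_nonneg _).trans h7)
  rw [← norm_mul] at h9
  refine h9.trans (le_of_eq ?_)
  rw [pow_add, norm_mul]
  ring

theorem BdF.one {E₀ : Type} [NormedAddCommGroup E₀] [NormedSpace ℂ E₀] [FiniteDimensional ℂ E₀]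
    {f : X → Y} {S : Set Y} {e₀ : Cm n ≃L[ℂ] (Cm p × E₀)} {𝒜 : Set (Set X)} :
    BdF f S e₀ 0 𝒜 (fun _ => 1) := by
  intro r hr
  exact ⟨1, fun v₀ Q _ _ _ _ _ P _ => by simp⟩

theorem BdF.pow {E₀ : Type} [NormedAddCommGroup E₀] [NormedSpace ℂ E₀] [FiniteDimensional ℂ E₀]
    {f : X → Y} {S : Set Y} {e₀ : Cm n ≃L[ℂ] (Cm p × E₀)} {𝒜 : Set (Set X)} {N : ℕ}
    {Θ : X → ℂ} (h : BdF f S e₀ N 𝒜 Θ) (a : ℕ) :
    BdF f S e₀ (N * a) 𝒜 (fun x => Θ x ^ a) := by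
  induction a with
  | zero =>
    have h1 := BdF.one (f := f) (S := S) (e₀ := e₀) (𝒜 := 𝒜)
    simpa using h1
  | succ a ih =>
    have h1 := ih.mul h
    have h2 : (fun x => Θ x ^ a * Θ x) = fun x => Θ x ^ (a + 1) := by
      funext x
      rw [pow_succ]
    rw [h2] at h1
    exact h1

theorem Rel2.mul {N N' : ℕ} {κ κ' : Set X → ℕ} {Φ Φ' : X → ℂ}
    (h₁ : Rel2 f g h S T e₁ e₂ N 𝒜 ℬ κ Φ) (h₂ : Rel2 f g h S T e₁ e₂ N' 𝒜 ℬ κ' Φ') :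
    Rel2 f g h S T e₁ e₂ (N + N') 𝒜 ℬ (fun D => κ D + κ' D) (fun x => Φ x * Φ' x) where
  hol := by
    intro x₀ x y₀ hx hx₀ hy₀ T e hT he
    obtain ⟨H, hH, hHe⟩ := h₁.hol x₀ x y₀ hx hx₀ hy₀ T e
      (fun D hD => hT D (by show κ D + κ' D ≠ 0; omega)) he
    obtain ⟨H', hH', hHe'⟩ := h₂.hol x₀ x y₀ hx hx₀ hy₀ T e
      (fun D hD => hT D (by show κ D + κ' D ≠ 0; omega)) he
    refine ⟨fun z => H z * H' z, hH.mul hH', ?_⟩
    filter_upwards [hHe, hHe'] with z hz hz' hzA hzB hzT hz0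
    simp only [pow_add, Finset.prod_mul_distrib] at hz0 ⊢
    have h1 := hz hzA hzB hzT (left_ne_zero_of_mul hz0)
    have h2 := hz' hzA hzB hzT (right_ne_zero_of_mul hz0)
    linear_combination (jac (Cm p) (chartAt (Cm p) y₀) (f z) ^ N' * Φ' z *
      ∏ D ∈ T, e D z ^ κ' D) * h1 + (H z * jac (Cm n) (chartAt (Cm n) x₀) z ^ N) * h2
  bound := by
    obtain ⟨Ξ, Θ, h1, h2, h3⟩ := h₁.bound
    obtain ⟨Ξ', Θ', h1', h2', h3'⟩ := h₂.bound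
    exact ⟨fun z => Ξ z * Ξ' z, fun x => Θ x * Θ' x, fun x => by rw [h1, h1']; ring,
      h2.mul h2', h3.mul h3'⟩

theorem rel2_one : Rel2 f g h S T e₁ e₂ 0 𝒜 ℬ (fun _ => 0) (fun _ => 1) where
  hol := by
    intro x₀ x y₀ hx hx₀ hy₀ T e hT he
    exact ⟨fun _ => 1, HolV.const (1 : ℂ) x, Filter.Eventually.of_forall fun z _ _ _ _ => by simp⟩
  bound := ⟨fun _ => 1, fun _ => 1, fun x => by simp, BdF.one, BdF.one⟩

theorem Rel2.congr {N N' : ℕ} {κ κ' : Set X → ℕ} {Φ Φ' : X → ℂ}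
    (h₁ : Rel2 f g h S T e₁ e₂ N 𝒜 ℬ κ Φ) (hN : N = N') (hκ : ∀ D, κ D = κ' D)
    (hΦ : ∀ x, Φ x = Φ' x) : Rel2 f g h S T e₁ e₂ N' 𝒜 ℬ κ' Φ' := by
  subst hN
  have h1 : κ = κ' := funext hκ
  have h2 : Φ = Φ' := funext hΦ
  rw [← h1, ← h2]; exact h₁

theorem Rel2.pow {N : ℕ} {κ : Set X → ℕ} {Φ : X → ℂ}
    (h₁ : Rel2 f g h S T e₁ e₂ N 𝒜 ℬ κ Φ) (a : ℕ) :
    Rel2 f g h S T e₁ e₂ (N * a) 𝒜 ℬ (fun D => a * κ D) (fun x => Φ x ^ a) := by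
  induction a with
  | zero => exact rel2_one.congr (by simp) (fun D => by simp) (fun x => by simp)
  | succ a ih =>
    exact (ih.mul h₁).congr (by ring) (fun D => by ring) (fun x => by rw [pow_succ])

theorem Rel2.mono {N : ℕ} {κ κ' : Set X → ℕ} {Φ : X → ℂ}
    (h₁ : Rel2 f g h S T e₁ e₂ N 𝒜 ℬ κ Φ) (hκ : ∀ D, κ D ≤ κ' D) :
    Rel2 f g h S T e₁ e₂ N 𝒜 ℬ κ' Φ where
  hol := by
    intro x₀ x y₀ hx hx₀ hy₀ T e hT he
    obtain ⟨H, hH, hHe⟩ := h₁.hol x₀ x y₀ hx hx₀ hy₀ T e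
      (fun D hD => hT D (by have := hκ D; omega)) he
    refine ⟨fun z => H z * ∏ D ∈ T, e D z ^ (κ' D - κ D),
      hH.mul (HolV.prod fun D hD => ((he D hD).holAt).pow _), ?_⟩
    filter_upwards [hHe] with z hz hzA hzB hzT hz0
    have h1 : ∏ D ∈ T, e D z ^ κ' D = (∏ D ∈ T, e D z ^ κ D) * ∏ D ∈ T, e D z ^ (κ' D - κ D) := by
      rw [← Finset.prod_mul_distrib]
      refine Finset.prod_congr rfl fun D _ => ?_
      rw [← pow_add]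
      congr 1
      have := hκ D
      omega
    rw [h1] at hz0 ⊢
    have h2 := hz hzA hzB hzT (left_ne_zero_of_mul hz0)
    linear_combination (∏ D ∈ T, e D z ^ (κ' D - κ D)) * h2
  bound := h₁.bound

theorem Rel2.sub {S' : Set Y} (hS : S ⊆ S') {N : ℕ} {κ : Set X → ℕ} {Φ : X → ℂ}
    (h₁ : Rel2 f g h S T e₁ e₂ N 𝒜 ℬ κ Φ) : Rel2 f g h S' T e₁ e₂ N 𝒜 ℬ κ Φ where
  hol := fun x₀ x y₀ hx => h₁.hol x₀ x y₀ fun h => hx (hS h)
  bound := by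
    obtain ⟨Ξ, Θ, h1, h2, h3⟩ := h₁.bound
    refine ⟨Ξ, Θ, h1, fun r hr => ?_, h3⟩
    obtain ⟨C, hC⟩ := h2 r hr
    exact ⟨C, fun v₀ Q a1 a2 a3 a4 => hC v₀ Q a1 a2 a3 fun h => a4 (hS h)⟩

/-- At a point over `O`, there are `r` relative forms of the composite. -/
def HasForms2 (f : X → Y) (g : X → Z) (h : Z → Y) (S : Set Y) (T : Set Z)
    (e₁ : Cm n ≃L[ℂ] (Cm q × E₁)) (e₂ : Cm q ≃L[ℂ] (Cm p × ℂ)) (Δ : Set X → ℝ) (r : ℕ)
    (O : Set Y) : Prop :=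
  ∃ (N : ℕ) (𝒜 : Set (Set X)) (ℬ : Set (Set Z)) (κ₀ : Set X → ℕ) (Θ : X → ℂ)
      (Ξ : Fin r → X → ℂ), 0 < N ∧ 𝒜.Finite ∧ (∀ D ∈ 𝒜, IsPrimeDivisor (Cm n) D) ∧
      ℬ.Finite ∧ (∀ D ∈ ℬ, IsPrimeDivisor (Cm q) D) ∧
      Rel2 f g h S T e₁ e₂ N 𝒜 ℬ κ₀ Θ ∧ (∀ b, Rel2 f g h S T e₁ e₂ N 𝒜 ℬ κ₀ (Ξ b)) ∧
      (∀ D, (κ₀ D : ℝ) ≤ N * Δ D) ∧ ∃ x, f x ∈ O ∧ (∀ᶠ z in 𝓝 x, Θ z ≠ 0) ∧
      (∀ b, HolV (Cm n) (fun z => Ξ b z / Θ z) x) ∧
      ∀ c : Fin r → ℂ, (∀ ξ, dM (Cm n) (Cm p) f x ξ = 0 →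
        ∑ b, c b * dif (Cm n) (fun z => Ξ b z / Θ z) x ξ = 0) → ∀ b, c b = 0

end Rel2

variable {n p q : ℕ} {X X' Z Y : Type} [TopologicalSpace X] [T2Space X] [ConnectedSpace X]
  [ChartedSpace (Cm n) X] [IsManifold 𝓘(ℂ, Cm n) ω X]
  [TopologicalSpace X'] [ChartedSpace (Cm n) X'] [IsManifold 𝓘(ℂ, Cm n) ω X']
  [TopologicalSpace Z] [T2Space Z] [ChartedSpace (Cm q) Z] [IsManifold 𝓘(ℂ, Cm q) ω Z]
  [TopologicalSpace Y] [T2Space Y] [ChartedSpace (Cm p) Y]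
  [IsManifold 𝓘(ℂ, Cm p) ω Y]
variable {E₁ : Type} [NormedAddCommGroup E₁] [NormedSpace ℂ E₁] [FiniteDimensional ℂ E₁]

/-- **Campana's inequality from relative forms of a composite `X' → Z → Y`** (`j : X' → X` is the
complement of a closed subset of codimension at least `2`). No condition on the divisors of `X'`
or `Z`. -/
theorem kodGE_flag (hgen : GenPart) (hsl : SlicePart) (hlin : LinPart) (hpole : PoleZPart)
    {j : X' → X} (hj : J.IsBigOpen (Cm n) j) {f : X' → Y}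
    (hf : ContMDiff 𝓘(ℂ, Cm n) 𝓘(ℂ, Cm p) ω f) {g : X' → Z}
    (hg : ContMDiff 𝓘(ℂ, Cm n) 𝓘(ℂ, Cm q) ω g) {h : Z → Y}
    (hh : ContMDiff 𝓘(ℂ, Cm q) 𝓘(ℂ, Cm p) ω h) (hfe : ∀ x, f x = h (g x))
    {S₀ : Set Y} (hS₀ : IsSmallSet (Cm p) S₀) {T : Set Z} (hT : IsSmallSet (Cm q) T)
    (hsub : ∀ x, f x ∉ S₀ → Function.Surjective (dM (Cm n) (Cm p) f x))
    (hsubg : ∀ x, g x ∉ T → Function.Surjective (dM (Cm n) (Cm q) g x))
    (hTne : ∃ x, g x ∉ T)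
    (e₁ : Cm n ≃L[ℂ] (Cm q × E₁)) (e₂ : Cm q ≃L[ℂ] (Cm p × ℂ))
    {Δ : Set X → ℝ} (hsnc : J.IsSNC (Cm n) Δ)
    {Δ' : Set X' → ℝ} (hsnc' : J.IsSNC (Cm n) Δ') (hΔ : J.IsRestriction j Δ Δ') {r : ℕ}
    (hform : ∀ O : Set Y, IsOpen O → O.Nonempty → (∀ y ∈ O, y ∉ S₀) →
      HasForms2 f g h S₀ T e₁ e₂ Δ' r O) {j₂ : ℕ}
    (h₂ : KodFGE n p Δ j f j₂) :
    KodGE (Cm n) (fun (D : Set X) z g => IsLocalEq (Cm n) D g z) Δ (j₂ + r) := by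
  classical
  have hs := JB.snc hsnc
  have hs' := JB.snc hsnc'
  refine kodGE_emb (fun z => hj.1 z) hj.2.1 hj.2.2.1 hj.2.2.2 hs.finite hs.prime hΔ.1 hΔ.2 ?_
  obtain ⟨m, KX, 𝒢₁, σN, y₁, hm, hKX, h𝒢₁f, h𝒢₁p, hpull, hy₁, ht0, hsurj⟩ := h₂
  have hfh : ∀ x, HolM (Cm n) (Cm p) f x := fun x => hf x
  have hcont : Continuous f := hf.continuous
  -- the divisors of `Y`
  have h𝒢₁p' : ∀ G ∈ 𝒢₁, IsPrimeDivisor (Cm p) G := fun G hG => h𝒢₁p G hG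
  set S : Set Y := S₀ ∪ ⋃₀ 𝒢₁ with hSd
  have hSthin : IsSmallSet (Cm p) S :=
    hS₀.union (IsSmallSet.of_thin (isThinSet_sUnion h𝒢₁f h𝒢₁p'))
  have hS𝒢 : S₀ ⊆ S := subset_union_left
  have hS𝒢₁ : ⋃₀ 𝒢₁ ⊆ S := subset_union_right
  have hSc : IsClosed S := hSthin.1
  have hSdense : Dense Sᶜ := hSthin.dense_compl
  -- the sections
  choose kb hkb hkbs using fun b : Fin (j₂ + 1) => (hpull b).mero
  set k : Set Y → ℕ := fun G => ∑ b, kb b G with hkd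
  have hkG : ∀ G, k G ≠ 0 → G ∈ 𝒢₁ := by
    intro G hG
    obtain ⟨b, -, hb⟩ := Finset.exists_ne_zero_of_sum_ne_zero hG
    exact hkb b G hb
  have hkfin : {G | k G ≠ 0}.Finite := h𝒢₁f.subset fun G hG => hkG G hG
  set t : Fin (j₂ + 1) → Y → ℂ := fun b => σN b with htd
  have ht : ∀ b, IsSection (Cm p) (fun (D : Set Y) z g => IsLocalEq (Cm p) D g z) m k (t b) :=
    fun b => isSection_mono (fun D => Finset.single_le_sum (f := fun b => kb b D)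
      (fun _ _ => Nat.zero_le _) (Finset.mem_univ b)) hkfin (fun G hG => h𝒢₁p G (hkG G hG))
      (hkbs b)
  have hind : LinearIndependent ℂ (fun b : Fin j₂ =>
      dif (Cm p) (fun w => t b.succ w / t 0 w) y₁) :=
    JB.linearIndependent_of_surjective hsurj
  have hoffY : ∀ y, (∀ G ∈ 𝒢₁, y ∉ G) → ∀ G, k G ≠ 0 →
      ∃ g, IsLocalEq (Cm p) G g y ∧ g y ≠ 0 := by
    intro y hy G hG
    obtain ⟨g, hg⟩ := (h𝒢₁p G (hkG G hG)).2.1 y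
    exact ⟨g, hg, fun h0 => hy G (hkG G hG) ((show IsLocalEq (Cm p) G g y from hg).mem_iff.2 h0)⟩
  obtain ⟨y₂, hy₂⟩ := good_point ht (hoffY y₁ hy₁) ht0 hind
  -- an open set below
  obtain ⟨V, hV1, hV2, hV3⟩ := eventually_nhds_iff.1 hy₂
  set O : Set Y := V ∩ Sᶜ with hO
  have hVne : O.Nonempty := hSdense.inter_open_nonempty _ hV2 ⟨y₂, hV3⟩
  have hOo : IsOpen O := hV2.inter hSc.isOpen_compl
  obtain ⟨N, 𝒜, ℬ, κ₀, Θ, Ξ, hN, h𝒜f, h𝒜p, hℬf, hℬp, hΘ', hΞ', hκ₀, x₁, hx₁O, hΘx₁, hRx₁,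
    hRi⟩ := hform O hOo hVne fun y hy h => hy.2 (hS𝒢 h)
  have hΘ := hΘ'.sub hS𝒢
  have hΞ := fun b => (hΞ' b).sub hS𝒢
  have hsubS : ∀ x, f x ∉ S → Function.Surjective (dM (Cm n) (Cm p) f x) := fun x hx =>
    hsub x fun h => hx (hS𝒢 h)
  have hx₁S : f x₁ ∉ S := hx₁O.2
  have hdo : IsOpen {x | f x ∉ S} := hSc.isOpen_compl.preimage hcont
  -- the preimage of `S` is thin
  haveI := H949.TL.preconnected_big (n := n) hj
  have hthin : Cov n (f ⁻¹' S) := preimage_cov hfh ⟨x₁, hsubS x₁ hx₁S⟩ hSthin.cov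
  have hgh : ∀ x, HolM (Cm n) (Cm q) g x := fun x => hg x
  have hhh : ∀ x, HolM (Cm q) (Cm p) h x := fun x => hh x
  obtain ⟨xT, hxT⟩ := hTne
  have hTcov : Cov n (g ⁻¹' T) := preimage_cov hgh ⟨xT, hsubg xT hxT⟩ hT.cov
  haveI : T2Space X' := hj.2.1.isEmbedding.t2Space
  have hTd : Dense {x | g x ∉ T} := hTcov.dense_compl
  have hℬd : ∀ D ∈ ℬ, Dense {x | g x ∉ D} := by
    intro D hD
    have h1 : IsThinSet (Cm q) (⋃₀ {D}) := isThinSet_sUnion (Set.finite_singleton D)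
      (fun D' hD' => by rw [mem_singleton_iff.1 hD']; exact hℬp D hD)
    rw [sUnion_singleton] at h1
    exact (preimage_cov hgh ⟨xT, hsubg xT hxT⟩ (IsSmallSet.of_thin h1).cov).dense_compl
  -- the poles on `Z`
  have hgo : IsOpen {x | g x ∉ T} := hT.1.isOpen_compl.preimage hg.continuous
  have hBd := dense_pull hg.continuous hℬf (fun D hD => (hℬp D hD).1) hℬd
  choose Kb hKb htPb using fun b : Fin (j₂ + 1) =>
    hpole n p X X' Y j hj f hf Δ hsnc Δ' hsnc' hΔ 𝒢₁ m KX hKX (t b) (hpull b)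
  obtain ⟨q₀, hq₀, K₁, hK₁, -⟩ := exists_denominator hs'
  have hfin : {D | Δ' D ≠ 0}.Finite := hs'.finite
  have hpr' : ∀ D ∈ {D | Δ' D ≠ 0} ∪ 𝒜, IsPrimeDivisor (Cm n) D := fun D hD =>
    hD.elim (hs'.prime D) (h𝒜p D)
  have hdX := dense_compl_finite (hfin.union h𝒜f) (fun D hD => (hpr' D hD).1) (fun D hD => by
    rw [dense_iff_inter_open]
    intro U hU hUne
    obtain ⟨x, hxU, hxD⟩ := IsLocalEq.exists_notMem (hpr' D hD).2.1 hU hUne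
    exact ⟨x, hxU, hxD⟩)
  set q' : ℕ := N * q₀ with hqdef
  have hq : 0 < q' := Nat.mul_pos hN hq₀
  -- the functions
  let ρ : Fin j₂ ⊕ Fin r → X' → ℂ := Sum.elim
    (fun b : Fin j₂ => fun z => (t b.succ (f z) / t 0 (f z)) ^ q') (fun b z => Ξ b z / Θ z)
  obtain ⟨hy1, hy2, hy3, hy4⟩ := hV1 _ hx₁O.1
  have hρh : ∀ b, HolV (Cm n) (ρ b) x₁ := by
    rintro (b | b)
    · have h1 : HolV (Cm n) (fun z => (t b.succ (f z) / t 0 (f z)) ^ q') x₁ :=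
        HolV.comp (E' := Cm p) (h := fun w => (t b.succ w / t 0 w) ^ q')
          (HolV.pow (hy3 b) q') (hfh x₁)
      exact h1
    · exact hRx₁ b
  have hdρ : ∀ b : Fin j₂, dif (Cm n) (ρ (Sum.inl b)) x₁ =
      ((q' : ℂ) * (t b.succ (f x₁) / t 0 (f x₁)) ^ (q' - 1)) •
          (dif (Cm p) (fun w => t b.succ w / t 0 w) (f x₁)).comp (dM (Cm n) (Cm p) f x₁) := by
    intro b
    have h1 := dif_comp (HolV.pow (hy3 b) q') (hfh x₁)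
    rw [dif_pow (hy3 b)] at h1
    exact h1
  have hρi : LinearIndependent ℂ (fun b => dif (Cm n) (ρ b) x₁) := by
    have h5 : LinearIndependent ℂ (fun b : Fin j₂ =>
        (dif (Cm p) (fun w => t b.succ w / t 0 w) (f x₁)).comp (dM (Cm n) (Cm p) f x₁)) :=
      (linearIndependent_precomp (hsubS x₁ hx₁S) _).2 hy4
    have hc : ∀ b : Fin j₂, (q' : ℂ) * (t b.succ (f x₁) / t 0 (f x₁)) ^ (q' - 1) ≠ 0 := fun b =>
      mul_ne_zero (by exact_mod_cast hq.ne') (pow_ne_zero _ (div_ne_zero (hy2 b) hy1))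
    have h6 := h5.units_smul (fun b => Units.mk0 _ (hc b))
    rw [Fintype.linearIndependent_iff] at h6 ⊢
    intro g hg
    rw [Fintype.sum_sum_type] at hg
    have h7 : ∀ b : Fin r, g (Sum.inr b) = 0 := by
      refine hRi _ fun ξ hξ => ?_
      have h8 := congrArg (fun L : Cm n →L[ℂ] ℂ => L ξ) hg
      have h9 : (∑ b : Fin j₂, g (Sum.inl b) • dif (Cm n) (ρ (Sum.inl b)) x₁ :
          Cm n →L[ℂ] ℂ) ξ = 0 := by
        rw [sum_apply]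
        refine Finset.sum_eq_zero fun b _ => ?_
        rw [hdρ b]
        show g (Sum.inl b) • (((q' : ℂ) * (t b.succ (f x₁) / t 0 (f x₁)) ^ (q' - 1)) •
          (dif (Cm p) (fun w => t b.succ w / t 0 w) (f x₁)) (dM (Cm n) (Cm p) f x₁ ξ)) = 0
        rw [hξ, map_zero, smul_zero, smul_zero]
      have h10 : (∑ b : Fin j₂, g (Sum.inl b) • dif (Cm n) (ρ (Sum.inl b)) x₁ :
          Cm n →L[ℂ] ℂ) ξ +
          (∑ b : Fin r, g (Sum.inr b) • dif (Cm n) (ρ (Sum.inr b)) x₁ : Cm n →L[ℂ] ℂ) ξ = 0 := h8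
      rw [h9, zero_add, sum_apply] at h10
      exact h10
    have hg' : ∑ b : Fin j₂, g (Sum.inl b) • dif (Cm n) (ρ (Sum.inl b)) x₁ = 0 := by
      have h0 : (∑ b : Fin r, g (Sum.inr b) • dif (Cm n) (ρ (Sum.inr b)) x₁ :
          Cm n →L[ℂ] ℂ) = 0 := by
        refine Finset.sum_eq_zero fun b _ => ?_
        rw [h7 b]
        refine ContinuousLinearMap.ext fun v => ?_
        show (0 : ℂ) * dif (Cm n) (ρ (Sum.inr b)) x₁ v = 0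
        exact zero_mul _
      rw [h0, add_zero] at hg
      exact hg
    have h8 := h6 (fun b => g (Sum.inl b)) (by
      rw [← hg']
      refine Finset.sum_congr rfl fun b _ => ?_
      rw [hdρ b]
      rfl)
    rintro (b | b)
    · exact h8 b
    · exact h7 b
  obtain ⟨NN, hN1, hN2, hN3⟩ := eventually_nhds_iff.1
    ((linearIndependent_dif_eventually hρh hρi).and hΘx₁)
  obtain ⟨x, ⟨⟨⟨⟨hxO, hxs⟩, hxN⟩, hxT'⟩, hxB⟩, hxD⟩ := hdX.2.inter_open_nonempty _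
    (((((hOo.preimage hcont).inter hdo).inter hN2).inter hgo).inter hBd.2) (by
      have h1 := hTd.inter_open_nonempty _ (((hOo.preimage hcont).inter hdo).inter hN2)
        ⟨x₁, ⟨hx₁O, hx₁S⟩, hN3⟩
      exact hBd.1.inter_open_nonempty _ ((((hOo.preimage hcont).inter hdo).inter hN2).inter hgo)
        h1)
  -- the sections above
  have hqm : 0 < q₀ * m := Nat.mul_pos hq₀ hm
  obtain ⟨pp, hp⟩ : ∃ pp, q₀ * m = pp + 1 := ⟨q₀ * m - 1, by omega⟩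
  have hKΔ : ∀ D, ((m * (N * K₁ D) : ℕ) : ℝ) = (N * (q₀ * m) : ℕ) * Δ' D := by
    intro D
    push_cast
    rw [hK₁ D]; ring
  have hκK : ∀ D, q₀ * m * κ₀ D ≤ m * (N * K₁ D) := by
    intro D
    have h1 : ((q₀ * m * κ₀ D : ℕ) : ℝ) ≤ ((m * (N * K₁ D) : ℕ) : ℝ) := by
      push_cast
      rw [hK₁ D]
      have h2 := hκ₀ D
      have h3 : (0 : ℝ) ≤ q₀ * m := by positivity
      calc (q₀ : ℝ) * m * κ₀ D ≤ q₀ * m * (N * Δ' D) := by gcongr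
        _ = m * (N * (q₀ * Δ' D)) := by ring
    exact_mod_cast h1
  have hKK : ∀ b D, q' * Kb b D ≤ m * (N * K₁ D) := by
    intro b D
    have h1 : ((q' * Kb b D : ℕ) : ℝ) ≤ ((m * (N * K₁ D) : ℕ) : ℝ) := by
      push_cast
      rw [hK₁ D, hqdef]
      push_cast
      have h2 := hKb b D
      have h3 : (0 : ℝ) ≤ N * q₀ := by positivity
      calc (N : ℝ) * q₀ * Kb b D ≤ N * q₀ * (m * Δ' D) := by gcongr
        _ = m * (N * (q₀ * Δ' D)) := by ring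
    exact_mod_cast h1
  have hform₀ : Rel2 f g h S T e₁ e₂ (N * (q₀ * m)) 𝒜 ℬ (fun D => m * (N * K₁ D))
      (fun z => Θ z ^ (q₀ * m)) := (hΘ.pow (q₀ * m)).mono hκK
  have hform₁ : ∀ b, Rel2 f g h S T e₁ e₂ (N * (q₀ * m)) 𝒜 ℬ (fun D => m * (N * K₁ D))
      (fun z => Θ z ^ pp * Ξ b z) := fun b =>
    (((hΘ.pow pp).mul (hΞ b)).congr (N' := N * (q₀ * m)) (by rw [hp]; ring)
      (κ' := fun D => q₀ * m * κ₀ D) (fun D => by rw [hp]; ring) (fun x => rfl)).mono hκK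
  have hmq : N * (q₀ * m) = m * q' := by rw [hqdef]; ring
  have hn : 0 < N * (q₀ * m) := Nat.mul_pos hN hqm
  have hKfin : {D | m * (N * K₁ D) ≠ 0}.Finite := hfin.subset fun D hD h0 => by
    apply hD
    have h1 := hK₁ D
    rw [h0, mul_zero] at h1
    have h2 : K₁ D = 0 := by exact_mod_cast h1
    rw [h2]; simp
  have hKpr : ∀ D, m * (N * K₁ D) ≠ 0 → IsPrimeDivisor (Cm n) D := fun D hD =>
    hs'.prime D fun h0 => by
      apply hD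
      have h1 := hK₁ D
      rw [h0, mul_zero] at h1
      have h2 : K₁ D = 0 := by exact_mod_cast h1
      rw [h2]; simp
  have htS : ∀ b y, y ∉ S → ∃ bY : Y → ℂ, HolV (Cm p) bY y ∧ ∀ᶠ y' in 𝓝 y,
      t b y' ^ q' = bY y' * jac (Cm p) (chartAt (Cm p) y : Y → Cm p) y' ^ (N * (q₀ * m)) := by
    intro b y hy
    obtain ⟨A, hA, hAe⟩ := _root_.Vale.Agent.P281.section_local (ht b) (hoffY y fun G hG hyG =>
      hy (hS𝒢₁ ⟨G, hG, hyG⟩))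
    refine ⟨fun y => A y ^ q', hA.pow q', ?_⟩
    filter_upwards [hAe] with y' h1
    rw [h1, mul_pow, ← pow_mul, hmq]
  have hlift : ∀ (b : Fin (j₂ + 1)) (Θ' : X' → ℂ),
      Rel2 f g h S T e₁ e₂ (N * (q₀ * m)) 𝒜 ℬ (fun D => m * (N * K₁ D)) Θ' → ∃ σ : X' → ℂ,
      IsSection (Cm n) (fun (D : Set X') z g => IsLocalEq (Cm n) D g z) (N * (q₀ * m))
        (fun D => m * (N * K₁ D)) σ ∧
        ∀ z, f z ∉ S → g z ∉ T → (∀ D ∈ 𝒜, z ∉ D) → (∀ D ∈ ℬ, g z ∉ D) →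
          σ z = t b (f z) ^ q' * Θ' z := by
    intro b Θ' hΘ''
    refine liftF hgen hsl hlin hfh hgh hhh hfe hSc hT.1 hsubS hsubg e₁ e₂ hthin hTd hn h𝒜f h𝒜p
      hℬf hℬp hℬd hΘ'' hKfin hKpr
      (t := fun y => t b y ^ q') (htS b) (K₁ := fun D => q' * Kb b D) (hKK b)
      (pole_pow (f := f) (S := S) (t := t b) (K := Kb b) ?_ hq hmq)
    intro z₀ T e hT he I
    obtain ⟨a, ha, hae⟩ := htPb b z₀ T e hT he I
    refine ⟨a, ha, ?_⟩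
    filter_upwards [hae] with z h1 h2 h3
    exact h1 (fun G hG hzG => h2 (hS𝒢₁ ⟨G, hG, hzG⟩)) h3
  choose σ hσs hσv using fun b : Fin (j₂ + 1) => hlift b _ hform₀
  choose σ' hσ's hσ'v using fun b : Fin r => hlift 0 _ (hform₁ b)
  have hev : ∀ᶠ z in 𝓝 x, f z ∈ O ∧ Θ z ≠ 0 ∧
      (∀ b, σ b z = t b (f z) ^ q' * Θ z ^ (q₀ * m)) ∧
      ∀ b, σ' b z = t 0 (f z) ^ q' * (Θ z ^ pp * Ξ b z) := by
    filter_upwards [(hOo.preimage hcont).mem_nhds hxO, hdo.mem_nhds hxs, hN2.mem_nhds hxN,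
      hdX.1.mem_nhds hxD, hgo.mem_nhds hxT', hBd.2.mem_nhds hxB] with z h1 h2 h3 h4 hzT hzB
    have h5 : ∀ D ∈ 𝒜, z ∉ D := fun D hD => h4 D (Or.inr hD)
    exact ⟨h1, (hN1 z h3).2, fun b => hσv b z h2 hzT h5 hzB, fun b => hσ'v b z h2 hzT h5 hzB⟩
  let s : Fin j₂ ⊕ Fin r → X' → ℂ := Sum.elim (fun b => σ b.succ) σ'
  have hrat : ∀ b, (fun z => s b z / σ 0 z) =ᶠ[𝓝 x] ρ b := by
    rintro (b | b)
    · filter_upwards [hev] with z hz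
      have h1 : t 0 (f z) ^ q' ≠ 0 := pow_ne_zero _ (hV1 _ hz.1.1).1
      have h2 : Θ z ^ (q₀ * m) ≠ 0 := pow_ne_zero _ hz.2.1
      show σ b.succ z / σ 0 z = (t b.succ (f z) / t 0 (f z)) ^ q'
      rw [hz.2.2.1, hz.2.2.1, mul_div_mul_right _ _ h2, div_pow]
    · filter_upwards [hev] with z hz
      have h1 : t 0 (f z) ^ q' ≠ 0 := pow_ne_zero _ (hV1 _ hz.1.1).1
      have h2 : Θ z ≠ 0 := hz.2.1
      show σ' b z / σ 0 z = Ξ b z / Θ z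
      rw [hz.2.2.1, hz.2.2.2, hp, pow_succ]
      field_simp
  refine kodGE_of_fintype (P := Fin j₂ ⊕ Fin r) hn (k := fun D => m * (N * K₁ D)) hKΔ
    (s₀ := σ 0) (s := s) (z := x) (hσs 0) ?_ ?_ ?_ ?_ (by simp)
  · rintro (b | b)
    · exact hσs _
    · exact hσ's _
  · intro D hD
    have hΔ : Δ' D ≠ 0 := by
      intro h0
      have h1 := hK₁ D
      rw [h0, mul_zero] at h1
      exact right_ne_zero_of_mul (right_ne_zero_of_mul hD) (by exact_mod_cast h1)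
    obtain ⟨g, hg⟩ := (hs'.prime D hΔ).2.1 x
    exact ⟨g, hg, fun h0 => hxD D (Or.inl hΔ) (hg.mem_iff.2 h0)⟩
  · rw [hev.self_of_nhds.2.2.1]
    exact mul_ne_zero (pow_ne_zero _ (hV1 _ hxO.1).1) (pow_ne_zero _ hev.self_of_nhds.2.1)
  · have hfun : (fun b : Fin j₂ ⊕ Fin r => dif (Cm n) (fun w => s b w / σ 0 w) x) =
        fun b => dif (Cm n) (ρ b) x := by
      funext b
      exact dV_congr (hrat b)
    rw [hfun]
    exact (hN1 x hxN).1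

end Vale.Agent.P281.H308.TM
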