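import Vale.Agent.P281.H740.TM.Spec
import Vale.Agent.P281.H308.TM.FBd

/-! P281, project T-M (helper308), flag core (T8): relative forms of a composite. -/

open scoped Manifold ContDiff Topology
open Set Filter Metric Vale.Agent.P281 Vale.Agent.P272.K
open Vale.Agent.P281.MF Vale.Agent.P281.ISO Vale.Agent.P281.ELL Vale.Agent.P281.H713
open Vale.Agent.P281.H713.TZ
open Vale.Agent.P281.H64.Gen (IsSmallSet)

set_option linter.all false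

noncomputable section

namespace Vale.Agent.P281.H308.TM

/-- The field `hol` of `RelForm` for `f = h ∘ g`, `Φ x = Ξ(g x) Θ(x)`: off `g⁻¹(T)`, off the divisors
of `𝒜` (in `X`), off the pull-backs of the divisors of `ℬ` (in `Z`), poles of order at most `κ`. -/
def HolF2 {n p q : ℕ} {X Z Y : Type} [TopologicalSpace X] [ChartedSpace (Cm n) X]
    [TopologicalSpace Z] [ChartedSpace (Cm q) Z] [TopologicalSpace Y] [ChartedSpace (Cm p) Y]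
    (f : X → Y) (g : X → Z) (S : Set Y) (T : Set Z) (N : ℕ) (𝒜 : Set (Set X)) (ℬ : Set (Set Z))
    (κ : Set X → ℕ) (Φ : X → ℂ) : Prop :=
  ∀ (x₀ x : X) (y₀ : Y), f x ∉ S → x ∈ (chartAt (Cm n) x₀).source →
      f x ∈ (chartAt (Cm p) y₀).source → ∀ (U : Finset (Set X)) (e : Set X → X → ℂ),
      (∀ D, κ D ≠ 0 → D ∈ U) → (∀ D ∈ U, IsLocalEq (Cm n) D (e D) x) →
      ∃ H : X → ℂ, HolV (Cm n) H x ∧ ∀ᶠ z in 𝓝 x, (∀ D ∈ 𝒜, z ∉ D) → (∀ D ∈ ℬ, g z ∉ D) →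
        g z ∉ T → ∏ D ∈ U, e D z ^ κ D ≠ 0 →
        jac (Cm p) (chartAt (Cm p) y₀) (f z) ^ N * Φ z * ∏ D ∈ U, e D z ^ κ D =
          H z * jac (Cm n) (chartAt (Cm n) x₀) z ^ N

/-- Relative forms of a composite `X → Z → Y`. -/
structure Rel2 {n p q : ℕ} {E₁ : Type} [NormedAddCommGroup E₁] [NormedSpace ℂ E₁]
    [FiniteDimensional ℂ E₁] {X Z Y : Type} [TopologicalSpace X] [ChartedSpace (Cm n) X]
    [TopologicalSpace Z] [ChartedSpace (Cm q) Z] [TopologicalSpace Y] [ChartedSpace (Cm p) Y]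
    (f : X → Y) (g : X → Z) (h : Z → Y) (S : Set Y) (T : Set Z)
    (e₁ : Cm n ≃L[ℂ] (Cm q × E₁)) (e₂ : Cm q ≃L[ℂ] (Cm p × ℂ)) (N : ℕ) (𝒜 : Set (Set X))
    (ℬ : Set (Set Z)) (κ : Set X → ℕ) (Φ : X → ℂ) : Prop where
  hol : HolF2 (n := n) (p := p) (q := q) f g S T N 𝒜 ℬ κ Φ
  bound : ∃ (Ξ : Z → ℂ) (Θ : X → ℂ), (∀ x, Φ x = Ξ (g x) * Θ x) ∧ BdF h S e₂ N ℬ Ξ ∧
    BdF g T e₁ N 𝒜 Θ

/-- **T8-P** (the poles of `Ξ(g x)^w Θ(x)^N`): `κ ≤ N Γ`, `Γ(D) ≤ (Δ(E) + o/w)/k` for all `E` over `D`;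
so `k w κ(D) - N o ≤ N w Δ(E)`. The primes `E` of `g⁻¹(D)` which are not over `D` lie over the small
set `S₁` (`ExcStmt`). Inputs (`CoefStmt`, `OrdStmt`, `ExcStmt`) as hypotheses. -/
def PolStmt : Prop :=
  ∀ (q : ℕ) (X Z Y : Type) [TopologicalSpace X] [ChartedSpace (Cm (q + 1 + 1)) X]
    [IsManifold 𝓘(ℂ, Cm (q + 1 + 1)) ω X] [TopologicalSpace Z] [ChartedSpace (Cm (q + 1)) Z]
    [IsManifold 𝓘(ℂ, Cm (q + 1)) ω Z] [TopologicalSpace Y] [ChartedSpace (Cm q) Y]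
    (g : X → Z) (h : Z → Y) (Δ : Set X → ℝ) (S : Set Z)
    (e₀ : Cm (q + 1 + 1) ≃L[ℂ] (Cm (q + 1) × ℂ)) (w : ℕ) (Θ : X → ℂ),
    H740.TM.Std (q + 1) g Δ S e₀ w Θ →
    H511.Surf.IsFibration (Cm (q + 1)) (Cm q) h (fun _ => 0) → ∀ Γ : Set Z → ℝ,
    {D | Γ D ≠ 0}.Finite → (∀ D, Γ D ≠ 0 → J.IsPrime (Cm (q + 1)) D) →
    (∀ D, J.IsPrime (Cm (q + 1)) D → ∀ r ∈ H740.TM.mset (q + 1) g S w Θ Δ D, Γ D ≤ r) →
    ∃ S₁ : Set Y, IsSmallSet (Cm q) S₁ ∧ ∀ S₀ : Set Y, IsSmallSet (Cm q) S₀ → S₁ ⊆ S₀ →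
      ∀ (e₂ : Cm (q + 1) ≃L[ℂ] (Cm q × ℂ)) (N : ℕ) (ℬ : Set (Set Z)) (κ : Set Z → ℕ) (Ξ : Z → ℂ),
      (∀ D, (κ D : ℝ) ≤ N * Γ D) → RelForm h S₀ e₂ N ℬ κ Ξ →
      HolF2 (n := q + 1 + 1) (p := q) (q := q + 1) (fun x => h (g x)) g S₀ S (N * w) ∅ ℬ
        (fun E => ⌊(N * w : ℝ) * Δ E⌋₊) (fun x => Ξ (g x) ^ w * Θ x ^ N)

end Vale.Agent.P281.H308.TM
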