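import Vale.Agent.P281.H308.TM.FInd
import Vale.Agent.P281.H68.TM.Rf
import Vale.Agent.P281.H740.TM.SpecR2
import Vale.Agent.P281.H740.TW.Easy
import Vale.Agent.P281.H64.Gen.SpecF
import Vale.Agent.P281.H713.TZ.SFin

/-! P281, project T-M (helper308): T8 (`FlagStmt`) from the flag core, the relative forms of `h`
(helper383) and the poles (helper638). -/

open scoped Manifold ContDiff Topology
open Set Filter Metric Vale.Agent.P281 Vale.Agent.P272.K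
open Vale.Agent.P281.MF Vale.Agent.P281.ISO Vale.Agent.P281.ELL Vale.Agent.P281.H713
open Vale.Agent.P281.H713.TZ Vale.Agent.P281.H64.Thin Vale.Agent.P281.H64.Gen

set_option linter.all false

noncomputable section

namespace Vale.Agent.P281.H308.TM

/-- The poles of `Ξ(g x)^w Θ(x)^N` (T8-P of helper638; off the divisors of `Γ`). -/
def PolC : Prop :=
  ∀ (q : ℕ) (X Z Y : Type) [TopologicalSpace X] [ChartedSpace (Cm (q + 1 + 1)) X]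
    [IsManifold 𝓘(ℂ, Cm (q + 1 + 1)) ω X] [TopologicalSpace Z] [ChartedSpace (Cm (q + 1)) Z]
    [IsManifold 𝓘(ℂ, Cm (q + 1)) ω Z] [TopologicalSpace Y] [ChartedSpace (Cm q) Y]
    [IsManifold 𝓘(ℂ, Cm q) ω Y]
    (g : X → Z) (h : Z → Y) (Δ : Set X → ℝ) (S : Set Z)
    (e₀ : Cm (q + 1 + 1) ≃L[ℂ] (Cm (q + 1) × ℂ)) (w : ℕ) (Θ : X → ℂ),
    H740.TM.Std (q + 1) g Δ S e₀ w Θ →
    H511.Surf.IsFibration (Cm (q + 1)) (Cm q) h (fun _ => 0) → ∀ Γ : Set Z → ℝ,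
    {D | Γ D ≠ 0}.Finite → (∀ D, Γ D ≠ 0 → J.IsPrime (Cm (q + 1)) D) →
    (∀ D, J.IsPrime (Cm (q + 1)) D → ∀ r ∈ H740.TM.mset (q + 1) g S w Θ Δ D, Γ D ≤ r) →
    ∃ S₁ : Set Y, IsSmallSet (Cm q) S₁ ∧ ∀ S₀ : Set Y, IsSmallSet (Cm q) S₀ → S₁ ⊆ S₀ →
      ∀ (e₂ : Cm (q + 1) ≃L[ℂ] (Cm q × ℂ)) (N : ℕ) (ℬ : Set (Set Z)) (κ : Set Z → ℕ) (Ξ : Z → ℂ),
      (∀ D, (κ D : ℝ) ≤ N * Γ D) → RelForm h S₀ e₂ N ℬ κ Ξ →
      HolF2 (n := q + 1 + 1) (p := q) (q := q + 1) (fun x => h (g x)) g S₀ S (N * w) ∅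
        (ℬ ∪ {D | Γ D ≠ 0}) (fun E => ⌊(N * w : ℝ) * Δ E⌋₊) (fun x => Ξ (g x) ^ w * Θ x ^ N)

/-- The relative forms of a fibration of relative dimension one (`hasFormsN` of helper383). -/
def FormsN : Prop :=
  ∀ (p : ℕ) (X Y : Type) [TopologicalSpace X] [T2Space X] [CompactSpace X] [ConnectedSpace X]
    [ChartedSpace (Cm (p + 1)) X] [IsManifold 𝓘(ℂ, Cm (p + 1)) ω X] [TopologicalSpace Y]
    [T2Space Y] [ChartedSpace (Cm p) Y] [IsManifold 𝓘(ℂ, Cm p) ω Y] (f : X → Y)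
    (Γ : Set X → ℝ), ContMDiff 𝓘(ℂ, Cm (p + 1)) 𝓘(ℂ, Cm p) ω f →
    (∀ y, IsConnected (f ⁻¹' {y})) → {D | Γ D ≠ 0}.Finite →
    (∀ D, Γ D ≠ 0 → J.IsPrime (Cm (p + 1)) D) → (∀ D, ∃ r : ℚ, Γ D = r ∧ 0 ≤ r ∧ r ≤ 1) →
    ∃ S₀ : Set Y, IsSmallSet (Cm p) S₀ ∧ ∀ S : Set Y, IsSmallSet (Cm p) S → S₀ ⊆ S →
      H64.IsProperFibration (n := p + 1) (p := p) f S ∧
      ∀ y, y ∉ S → ∀ (F : Type) [TopologicalSpace F] [ChartedSpace (Cm 1) F] (i : F → X),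
        H511.Surf.IsFibre (Cm (p + 1)) (Cm 1) f y i → ∀ j₁ : ℕ,
        KodGE (Cm 1) (fun (D : Set X) p' g => ∃ e, IsLocalEq (Cm (p + 1)) D e (i p') ∧
          ∀ᶠ q in 𝓝 p', g q = e (i q)) Γ j₁ →
        ∃ r : ℕ, j₁ ≤ r ∧ ∀ (e₀ : Cm (p + 1) ≃L[ℂ] (Cm p × ℂ)), ∀ y', y' ∉ S →
          HasForms f S e₀ Γ r y'

section

variable {n p q : ℕ} {X Z Y : Type} [TopologicalSpace X] [ChartedSpace (Cm n) X]
  [IsManifold 𝓘(ℂ, Cm n) ω X] [TopologicalSpace Z] [ChartedSpace (Cm q) Z]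
  [IsManifold 𝓘(ℂ, Cm q) ω Z] [TopologicalSpace Y] [ChartedSpace (Cm p) Y]
  [IsManifold 𝓘(ℂ, Cm p) ω Y]

theorem BdF.mono {E₀ : Type} [NormedAddCommGroup E₀] [NormedSpace ℂ E₀] [FiniteDimensional ℂ E₀]
    {f : X → Y} {S : Set Y} {e₀ : Cm n ≃L[ℂ] (Cm p × E₀)} {𝒜 𝒜' : Set (Set X)} {N : ℕ}
    {Θ : X → ℂ} (h : BdF f S e₀ N 𝒜 Θ) (hA : 𝒜 ⊆ 𝒜') : BdF f S e₀ N 𝒜' Θ := by
  intro r hr
  obtain ⟨C, hC⟩ := h r hr
  exact ⟨C, fun v₀ Q a1 a2 a3 a4 a5 => hC v₀ Q a1 a2 a3 a4 fun v hv D hD => a5 v hv D (hA hD)⟩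

/-- relative forms of `h` at a point, made independent at all nearby points, with values `1` -/
theorem shift {h : Z → Y} (hh : ∀ z, HolM (Cm q) (Cm p) h z) {S : Set Y}
    {e₂ : Cm q ≃L[ℂ] (Cm p × ℂ)} {Γ : Set Z → ℝ} {r w : ℕ} (hw : 0 < w) {y : Y}
    (hs : ∀ z, h z = y → Function.Surjective (dM (Cm q) (Cm p) h z))
    (hf : HasForms h S e₂ Γ r y) :
    ∃ (N : ℕ) (ℬ : Set (Set Z)) (κ : Set Z → ℕ) (Ξ₀ : Z → ℂ) (Ξ : Fin r → Z → ℂ), 0 < N ∧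
      ℬ.Finite ∧ (∀ D ∈ ℬ, IsPrimeDivisor (Cm q) D) ∧ RelForm h S e₂ N ℬ κ Ξ₀ ∧
      (∀ b, RelForm h S e₂ N ℬ κ (Ξ b)) ∧ (∀ D, (κ D : ℝ) ≤ N * Γ D) ∧ ∃ z₁, h z₁ = y ∧
      ∀ᶠ z in 𝓝 z₁, Ξ₀ z ≠ 0 ∧ (∀ b, HolV (Cm q) (fun z => (Ξ b z / Ξ₀ z) ^ w) z) ∧
        IndF (p := p) (q := q) h (fun b z => (Ξ b z / Ξ₀ z) ^ w) z := by
  obtain ⟨N, ℬ, κ, Ξ₀, Ξ, hN, hℬf, hℬp, hΞ₀, hΞ, hκ, z₁, hz₁, hΞne, hrat, hind⟩ := hf
  set c : Fin r → ℂ := fun b => 1 - Ξ b z₁ / Ξ₀ z₁ with hc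
  refine ⟨N, ℬ, κ, Ξ₀, fun b z => Ξ b z + c b * Ξ₀ z, hN, hℬf, hℬp, hΞ₀, fun b =>
    H68.TM.relForm_add (hΞ b) (H68.TM.relForm_smul hΞ₀ (c b)), hκ, z₁, hz₁, ?_⟩
  have hcong : ∀ b, (fun z => (Ξ b z + c b * Ξ₀ z) / Ξ₀ z) =ᶠ[𝓝 z₁] fun z => Ξ b z / Ξ₀ z + c b := by
    intro b
    filter_upwards [hΞne] with z hz
    field_simp
  have hh1 : ∀ b, HolV (Cm q) (fun z => (Ξ b z + c b * Ξ₀ z) / Ξ₀ z) z₁ := fun b =>
    ((hrat b).add (HolV.const (c b) z₁)).congr (hcong b)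
  have hv1 : ∀ b, (Ξ b z₁ + c b * Ξ₀ z₁) / Ξ₀ z₁ = 1 := by
    intro b
    refine Eq.trans (hcong b).self_of_nhds ?_
    show Ξ b z₁ / Ξ₀ z₁ + c b = 1
    simp only [hc]
    ring
  have hd1 : ∀ b, dif (Cm q) (fun z => ((Ξ b z + c b * Ξ₀ z) / Ξ₀ z) ^ w) z₁ =
      (w : ℂ) • dif (Cm q) (fun z => Ξ b z / Ξ₀ z) z₁ := by
    intro b
    rw [dif_pow (hh1 b), hv1 b, one_pow, mul_one]
    congr 1
    have h1 : dif (Cm q) (fun z => (Ξ b z + c b * Ξ₀ z) / Ξ₀ z) z₁ =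
        dif (Cm q) (fun z => Ξ b z / Ξ₀ z + c b) z₁ := dV_congr (hcong b)
    rw [h1, dif_add (hrat b) (HolV.const (c b) z₁), dif_const, add_zero]
  have hi1 : IndF (p := p) (q := q) h (fun b z => ((Ξ b z + c b * Ξ₀ z) / Ξ₀ z) ^ w) z₁ := by
    intro a ha
    have h1 : ∀ b, (fun b => (w : ℂ) * a b) b = 0 := by
      refine hind (fun b => (w : ℂ) * a b) fun η hη => ?_
      rw [← ha η hη]
      refine Finset.sum_congr rfl fun b _ => ?_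
      have h5 : dif (Cm q) (fun z => ((Ξ b z + c b * Ξ₀ z) / Ξ₀ z) ^ w) z₁ η =
          (w : ℂ) * dif (Cm q) (fun z => Ξ b z / Ξ₀ z) z₁ η := by
        rw [hd1 b]
        rfl
      rw [h5]
      ring
    intro b
    exact (mul_eq_zero.1 (h1 b)).resolve_left (by exact_mod_cast hw.ne')
  have hpow : ∀ b, HolV (Cm q) (fun z => ((Ξ b z + c b * Ξ₀ z) / Ξ₀ z) ^ w) z₁ := fun b =>
    (hh1 b).pow w
  filter_upwards [hΞne, Filter.eventually_all.2 fun b => HolV.eventually (E := Cm q) (hpow b),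
    indF_open hh (hs z₁ hz₁) hpow hi1] with z a1 a2 a3
  exact ⟨a1, a2, a3⟩

end

theorem bigId {n : ℕ} {X : Type} [TopologicalSpace X] [ChartedSpace (Cm n) X]
    [IsManifold 𝓘(ℂ, Cm n) ω X] : J.IsBigOpen (Cm n) (id : X → X) := by
  refine ⟨contMDiff_id, Topology.IsOpenEmbedding.id, fun z => ?_, fun x => ?_⟩
  · rw [mfderiv_id]
    exact Function.injective_id
  · refine ⟨fun _ => 1, contMDiffAt_const, fun h => ?_, Eventually.of_forall fun z => ⟨fun h => ?_,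
      fun h => absurd h one_ne_zero⟩⟩
    · exact one_ne_zero h.self_of_nhds
    · exact absurd (mem_range_self z) h

theorem resId {X : Type} [TopologicalSpace X] (Δ : Set X → ℝ) :
    J.IsRestriction (id : X → X) Δ Δ :=
  ⟨fun D _ => rfl, fun D' h => ⟨D', h, rfl⟩⟩

/-- the forms of the composite -/
theorem forms2 {q : ℕ} {X Z Y : Type} [TopologicalSpace X] [ChartedSpace (Cm (q + 1 + 1)) X]
    [IsManifold 𝓘(ℂ, Cm (q + 1 + 1)) ω X] [TopologicalSpace Z] [ChartedSpace (Cm (q + 1)) Z]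
    [IsManifold 𝓘(ℂ, Cm (q + 1)) ω Z] [TopologicalSpace Y] [ChartedSpace (Cm q) Y]
    [IsManifold 𝓘(ℂ, Cm q) ω Y]
    {g : X → Z} {h : Z → Y} {Δ : Set X → ℝ} (hΔ : ∀ D, 0 ≤ Δ D) {S : Set Z}
    {e₁ : Cm (q + 1 + 1) ≃L[ℂ] (Cm (q + 1) × ℂ)} {w : ℕ} (hw : 0 < w) {Θ : X → ℂ}
    (hg : ContMDiff 𝓘(ℂ, Cm (q + 1 + 1)) 𝓘(ℂ, Cm (q + 1)) ω g)
    (hgs : Function.Surjective g) (hh : ContMDiff 𝓘(ℂ, Cm (q + 1)) 𝓘(ℂ, Cm q) ω h)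
    (hsg : ∀ x, g x ∉ S → Function.Surjective (dM (Cm (q + 1 + 1)) (Cm (q + 1)) g x))
    (hθ : ∀ x, ∀ U ∈ 𝓝 x, ∃ x' ∈ U, g x' ∉ S ∧ ∀ᶠ z in 𝓝 x', Θ z ≠ 0)
    (hΘ : BdF g S e₁ w ∅ Θ) {Γ : Set Z → ℝ} (hΓf : {D | Γ D ≠ 0}.Finite)
    (hΓp : ∀ D, Γ D ≠ 0 → J.IsPrime (Cm (q + 1)) D) {S' : Set Y}
    (hsh : ∀ z, h z ∉ S' → Function.Surjective (dM (Cm (q + 1)) (Cm q) h z))
    {e₂ : Cm (q + 1) ≃L[ℂ] (Cm q × ℂ)}
    (hpol : ∀ (N : ℕ) (ℬ : Set (Set Z)) (κ : Set Z → ℕ) (Ξ : Z → ℂ),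
      (∀ D, (κ D : ℝ) ≤ N * Γ D) → RelForm h S' e₂ N ℬ κ Ξ →
      HolF2 (n := q + 1 + 1) (p := q) (q := q + 1) (fun x => h (g x)) g S' S (N * w) ∅
        (ℬ ∪ {D | Γ D ≠ 0}) (fun E => ⌊(N * w : ℝ) * Δ E⌋₊) (fun x => Ξ (g x) ^ w * Θ x ^ N))
    {r : ℕ} (hform : ∀ y, y ∉ S' → HasForms h S' e₂ Γ r y) {O : Set Y} (hO : IsOpen O)
    (hOne : O.Nonempty) (hOS : ∀ y ∈ O, y ∉ S') :
    HasForms2 (n := q + 1 + 1) (p := q) (q := q + 1) (fun x => h (g x)) g h S' S e₁ e₂ Δ r O := by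
  obtain ⟨y, hyO⟩ := hOne
  have hyS := hOS y hyO
  have hhh : ∀ z, HolM (Cm (q + 1)) (Cm q) h z := fun z => hh z
  have hgh : ∀ z, HolM (Cm (q + 1 + 1)) (Cm (q + 1)) g z := fun z => hg z
  obtain ⟨N, ℬ, κ, Ξ₀, Ξ, hN, hℬf, hℬp, hΞ₀, hΞ, hκ, z₁, hz₁, hev⟩ := shift hhh hw
    (fun z hz => hsh z (by rw [hz]; exact hyS)) (hform y hyS)
  obtain ⟨x₁, hx₁⟩ := hgs z₁
  have hU : ∀ᶠ x in 𝓝 x₁, (h (g x) ∈ O ∧ Ξ₀ (g x) ≠ 0) ∧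
      (∀ b, HolV (Cm (q + 1)) (fun z => (Ξ b z / Ξ₀ z) ^ w) (g x)) ∧
        IndF (p := q) (q := q + 1) h (fun b z => (Ξ b z / Ξ₀ z) ^ w) (g x) := by
    have h1 : Tendsto g (𝓝 x₁) (𝓝 z₁) := by
      have := (hgh x₁).continuousAt.tendsto
      rwa [hx₁] at this
    have h2 : ∀ᶠ z in 𝓝 z₁, h z ∈ O :=
      (hhh z₁).continuousAt.eventually (hO.mem_nhds (by rw [hz₁]; exact hyO))
    filter_upwards [h1.eventually hev, h1.eventually h2] with x h3 h4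
    exact ⟨⟨h4, h3.1⟩, h3.2.1, h3.2.2⟩
  obtain ⟨U, hU1, hUo, hxU⟩ := _root_.eventually_nhds_iff.1 hU
  obtain ⟨x, hxU', hxS, hΘx⟩ := hθ x₁ U (hUo.mem_nhds hxU)
  obtain ⟨⟨hx1, hx2⟩, hx3, hx4⟩ := hU1 x hxU'
  have hbdΞ : ∀ Ξ' : Z → ℂ, RelForm h S' e₂ N ℬ κ Ξ' →
      BdF h S' e₂ (N * w) (ℬ ∪ {D | Γ D ≠ 0}) (fun z => Ξ' z ^ w) := fun Ξ' h1 =>
    BdF.mono (BdF.pow (show BdF h S' e₂ N ℬ Ξ' from h1.bound) w) subset_union_left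
  have hbdΘ : BdF g S e₁ (N * w) ∅ (fun x => Θ x ^ N) := by
    have h1 := BdF.pow hΘ N
    rwa [mul_comm w N] at h1
  have hrel : ∀ Ξ' : Z → ℂ, RelForm h S' e₂ N ℬ κ Ξ' →
      Rel2 (n := q + 1 + 1) (p := q) (q := q + 1) (fun x => h (g x)) g h S' S e₁ e₂ (N * w) ∅
        (ℬ ∪ {D | Γ D ≠ 0}) (fun E => ⌊(N * w : ℝ) * Δ E⌋₊)
        (fun x => Ξ' (g x) ^ w * Θ x ^ N) := fun Ξ' h1 =>
    ⟨hpol N ℬ κ Ξ' hκ h1, fun z => Ξ' z ^ w, fun x => Θ x ^ N, fun x => rfl, hbdΞ Ξ' h1, hbdΘ⟩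
  have hcong : ∀ b, (fun z => (Ξ b (g z) ^ w * Θ z ^ N) / (Ξ₀ (g z) ^ w * Θ z ^ N)) =ᶠ[𝓝 x]
      fun z => (Ξ b (g z) / Ξ₀ (g z)) ^ w := by
    intro b
    filter_upwards [hΘx] with z hz
    rw [mul_div_mul_right _ _ (pow_ne_zero N hz), div_pow]
  refine ⟨N * w, ∅, ℬ ∪ {D | Γ D ≠ 0}, fun E => ⌊(N * w : ℝ) * Δ E⌋₊,
    fun x => Ξ₀ (g x) ^ w * Θ x ^ N, fun b x => Ξ b (g x) ^ w * Θ x ^ N, Nat.mul_pos hN hw,
    finite_empty, fun D hD => absurd hD (notMem_empty D), hℬf.union hΓf, ?_, hrel Ξ₀ hΞ₀,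
    fun b => hrel (Ξ b) (hΞ b), ?_, x, hx1, ?_, ?_, ?_⟩
  · rintro D (hD | hD)
    · exact hℬp D hD
    · exact hΓp D hD
  · intro D
    have h1 := Nat.floor_le (show (0 : ℝ) ≤ (N * w : ℝ) * Δ D from
      mul_nonneg (by positivity) (hΔ D))
    push_cast
    exact h1
  · have h1 : ∀ᶠ z in 𝓝 x, Ξ₀ (g z) ≠ 0 := by
      filter_upwards [hUo.mem_nhds hxU'] with z hz
      exact (hU1 z hz).1.2
    filter_upwards [hΘx, h1] with z h2 h3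
    exact mul_ne_zero (pow_ne_zero _ h3) (pow_ne_zero _ h2)
  · intro b
    exact (HolV.comp (h := fun z => (Ξ b z / Ξ₀ z) ^ w) (hx3 b) (hgh x)).congr (hcong b)
  · intro c hc
    refine indF_pull (f := fun x => h (g x)) (h := h) (fun _ => rfl) (hgh x) (hhh (g x)) hx3
      (hsg x hxS) hx4 c fun ξ hξ => ?_
    rw [← hc ξ hξ]
    refine Finset.sum_congr rfl fun b _ => ?_
    congr 1
    exact congrArg (fun T : Cm (q + 1 + 1) →L[ℂ] ℂ => T ξ) (dV_congr (hcong b)).symm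

/-- **T8** -/
theorem flag_of (crit : CritStmt) (forms : FormsN) (th : H740.TM.ThStmt) (coef : H740.TM.CoefStmt)
    (pol : PolC) : H740.TM.FlagStmt := by
  intro q X Z Y _ _ _ _ _ _ _ _ g h Δ S e₁ w Θ hstd hh Γ hΓf hΓp hΓr hΓm
  have : T2Space X := hstd.fib.hausdorff.1
  have : T2Space Z := hstd.fib.hausdorff.2
  have : T2Space Y := hh.hausdorff.2
  have : CompactSpace X := hstd.fib.compact
  have : CompactSpace Z := hh.compact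
  have : ConnectedSpace X := hstd.fib.connected
  have : ConnectedSpace Z := hh.connected
  have : IsManifold 𝓘(ℂ, Cm q) ω Y := hh.manifold.2
  have hgs : Function.Surjective g := fun z => (hstd.fib.fibres z).nonempty
  have hf := H740.comp_fib' hstd.fib hh
  obtain ⟨S₁, hS₁, hpol⟩ := pol q X Z Y g h Δ S e₁ w Θ hstd hh Γ hΓf hΓp hΓm
  obtain ⟨S₂, hS₂, hPf⟩ := crit (q + 1 + 1) q X Y (fun x => h (g x)) hf.hol hf.fibres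
  obtain ⟨S₃, hS₃, hforms⟩ := forms q Z Y h Γ hh.hol hh.fibres hΓf hΓp hΓr
  set S' : Set Y := S₁ ∪ S₂ ∪ S₃ with hS'd
  have hS' : IsSmallSet (Cm q) S' := (hS₁.union hS₂).union hS₃
  obtain ⟨hPh, hform⟩ := hforms S' hS' subset_union_right
  have hPf' := hPf S' (subset_union_right.trans subset_union_left) hS'.1
  obtain ⟨H, hH, hSH⟩ := hS'.2
  refine ⟨H, hH, fun y hy C _ _ _ i' hi' => ?_⟩
  have hyS : y ∉ S' := fun h1 => by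
    obtain ⟨k, hk⟩ := mem_iUnion.1 (hSH h1)
    exact hy k hk
  have : IsManifold 𝓘(ℂ, Cm 1) ω C := hi'.manifold
  have hs := JB.snc hstd.fib.snc
  have hΔ0 : ∀ D, 0 ≤ Δ D := fun D => (snc01 hs D).1
  -- `Θ` does not vanish on a dense set
  have hco := coef (q + 1) X Z g Δ S e₁ w Θ hstd.fib hstd.small hstd.proper hstd.pos hstd.form
  obtain ⟨-, -, -, hne⟩ := th (q + 1) X Z g Δ S e₁ w Θ hstd hco
  have hsg : ∀ x, g x ∉ S → Function.Surjective (dM (Cm (q + 1 + 1)) (Cm (q + 1)) g x) :=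
    fun x hx => hstd.proper.submersive x hx
  obtain ⟨xS, hxS, -⟩ := hstd.ne
  have hdS : Dense {x | g x ∉ S} := (preimage_cov (fun x => hstd.fib.hol x) ⟨xS, hsg xS hxS⟩
    hstd.small.cov).dense_compl
  have hθ : ∀ x, ∀ U ∈ 𝓝 x, ∃ x' ∈ U, g x' ∉ S ∧ ∀ᶠ z in 𝓝 x', Θ z ≠ 0 := fun x U hU =>
    dense_theta (p := q + 1) hstd.fib.hol.continuous hstd.small.1 hdS (w := w) (fun x => by
      obtain ⟨H, hH⟩ := hco x
      exact ⟨H, hH, hne x H hH⟩) x hU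
  obtain ⟨e₂⟩ : Nonempty (Cm (q + 1) ≃L[ℂ] (Cm q × ℂ)) := ⟨ContinuousLinearEquiv.ofFinrankEq (by
    rw [Module.finrank_prod, Module.finrank_self, fr, fr])⟩
  have key : J.kod (Cm 1) (fun (D : Set Z) p g => ∃ e, J.IsLocalEq (Cm (q + 1)) D e (i' p) ∧
        ∀ᶠ q in 𝓝 p, g q = e (i' q)) Γ +
      TL.kodF (n := q + 1 + 1) (p := q) Δ (id : X → X) (fun x => h (g x)) ≤
      J.kod (Cm (q + 1 + 1)) (fun (D : Set X) z g => J.IsLocalEq (Cm (q + 1 + 1)) D g z) Δ := by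
    rw [JB.kod_eq, JB.kod_eq]
    refine kodF_add_le fun j₁ j₂ h₁ h₂ => ?_
    obtain ⟨r, hjr, hfm⟩ := hform y hyS C i' hi' j₁ h₁
    have hmain := kodGE_flag H413.TZ.genPart H342.TZ.slicePart H431.linPart H498.poleZPart
      (r := r) (j := (id : X → X)) bigId hf.hol hstd.fib.hol hh.hol (fun _ => rfl) hS'
      hstd.small (fun x hx => hPf'.submersive x hx) hsg ⟨xS, hxS⟩ e₁ e₂ hstd.fib.snc
      hstd.fib.snc (resId Δ) (fun O hO hOne hOS =>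
        forms2 hΔ0 hstd.pos hstd.fib.hol hgs hh.hol hsg hθ hstd.form.bound hΓf hΓp
          (fun z hz => hPh.submersive z hz)
          (fun N ℬ κ Ξ h1 h2 => hpol S' hS' (subset_union_left.trans subset_union_left) e₂ N ℬ κ Ξ
            h1 h2) (hfm e₂) hO hOne hOS) h₂
    obtain ⟨m, rfl⟩ := Nat.exists_eq_add_of_le hjr
    have hlow : ∀ m l, KodGE (Cm (q + 1 + 1))
        (fun (D : Set X) z g => IsLocalEq (Cm (q + 1 + 1)) D g z) Δ (l + m) →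
        KodGE (Cm (q + 1 + 1))
        (fun (D : Set X) z g => IsLocalEq (Cm (q + 1 + 1)) D g z) Δ l := by
      intro m
      induction m with
      | zero => intro l hl; exact hl
      | succ m ih => intro l hl; exact ih l (kodGE_pred' hl)
    refine hlow m (j₁ + j₂) ?_
    have h3 : j₂ + (j₁ + m) = j₁ + j₂ + m := by ring
    rw [← h3]
    exact hmain
  rw [TZ.S.kodF_eq]
  exact key

end Vale.Agent.P281.H308.TM
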