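import Vale.Agent.P281.H308.TM.FBd
import Vale.Agent.P281.H64.Gen.Lift

/-! P281, project T-M (helper308), flag core: generic points for a flag. -/

open scoped Manifold ContDiff Topology
open Set Filter Metric Vale.Agent.P281 Vale.Agent.P272.K
open Vale.Agent.P281.MF Vale.Agent.P281.ISO Vale.Agent.P281.ELL Vale.Agent.P281.H713
open Vale.Agent.P281.H713.TZ

set_option linter.all false

noncomputable section

namespace Vale.Agent.P281.H308.TM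

section

variable {n p q : ℕ} {E₀ : Type} [NormedAddCommGroup E₀] [NormedSpace ℂ E₀] [FiniteDimensional ℂ E₀]

theorem mnr_analytic {F : Cm n → Cm p} {c₀ : Cm n} (hF : AnalyticAt ℂ F c₀)
    (κ : Fin p → Fin n) : AnalyticAt ℂ (fun c => mnr (fderiv ℂ F c) κ) c₀ :=
  ((mnr_cont κ).contDiffAt.comp c₀ hF.fderiv.contDiffAt :
    ContDiffAt ℂ ω (fun c => mnr (fderiv ℂ F c) κ) c₀).analyticAt

theorem Lhat_analytic {F : Cm n → Cm p} {c₀ : Cm n} (hF : AnalyticAt ℂ F c₀)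
    (J : Fin p → Fin n) (s : E₀ →L[ℂ] Cm n) (v : E₀) :
    AnalyticAt ℂ (fun c => Lhat (fderiv ℂ F c) J s v) c₀ := by
  have h1 : (fun c => Lhat (fderiv ℂ F c) J s v) = fun c => mnr (fderiv ℂ F c) J • s v -
      ∑ b, (∑ k, s v k * mnr (fderiv ℂ F c) (Function.update J b k)) •
        (Pi.single (J b) 1 : Cm n) := by
    funext c
    exact Lhat_apply _ _ _ _
  rw [h1]
  have h2 : AnalyticAt ℂ (fun c => mnr (fderiv ℂ F c) J • s v) c₀ :=
    (mnr_analytic hF J).smul (analyticAt_const (v := s v))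
  have h4 : ∀ b : Fin p, AnalyticAt ℂ (fun c => (∑ k, s v k *
      mnr (fderiv ℂ F c) (Function.update J b k)) • (Pi.single (J b) 1 : Cm n)) c₀ := by
    intro b
    have h5 : AnalyticAt ℂ (fun c => ∑ k, s v k *
        mnr (fderiv ℂ F c) (Function.update J b k)) c₀ :=
      Finset.analyticAt_fun_sum _ fun k _ => analyticAt_const.mul (mnr_analytic hF _)
    exact h5.smul (analyticAt_const (v := (Pi.single (J b) 1 : Cm n)))
  exact h2.sub (Finset.analyticAt_fun_sum _ fun b _ => h4 b)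

theorem dLhat_analytic {F : Cm n → Cm p} {G : Cm n → Cm q} {c₀ : Cm n} (hF : AnalyticAt ℂ F c₀)
    (hG : AnalyticAt ℂ G c₀) (J : Fin p → Fin n) (s : E₀ →L[ℂ] Cm n) (v : E₀) (i : Fin q) :
    AnalyticAt ℂ (fun c => fderiv ℂ G c (Lhat (fderiv ℂ F c) J s v) i) c₀ := by
  have h2 : AnalyticAt ℂ (fun c => fderiv ℂ G c (Lhat (fderiv ℂ F c) J s v)) c₀ :=
    (hG.fderiv.contDiffAt.clm_apply (Lhat_analytic hF J s v).contDiffAt).analyticAt
  exact (ContinuousLinearMap.proj (R := ℂ) (φ := fun _ : Fin q => ℂ) i).analyticAt _ |>.comp h2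

end

section

variable {n p q : ℕ} {X Z Y : Type} [TopologicalSpace X] [ChartedSpace (Cm n) X]
  [IsManifold 𝓘(ℂ, Cm n) ω X] [TopologicalSpace Z] [ChartedSpace (Cm q) Z]
  [IsManifold 𝓘(ℂ, Cm q) ω Z] [TopologicalSpace Y] [ChartedSpace (Cm p) Y]
  [IsManifold 𝓘(ℂ, Cm p) ω Y]
variable {E₁ : Type} [NormedAddCommGroup E₁] [NormedSpace ℂ E₁] [FiniteDimensional ℂ E₁]

/-- generic points, and the bound there -/
theorem gen_bd (hgen : GenPart) (hsl : SlicePart) (hlin : LinPart)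
    {f : X → Y} (hf : ∀ x, HolM (Cm n) (Cm p) f x) {g : X → Z} (hg : ∀ x, HolM (Cm n) (Cm q) g x)
    {h : Z → Y} (hh : ∀ z, HolM (Cm q) (Cm p) h z) (hfe : ∀ x, f x = h (g x))
    {S : Set Y} {T : Set Z}
    (hsub : ∀ x, f x ∉ S → Function.Surjective (dM (Cm n) (Cm p) f x))
    (hsubg : ∀ x, g x ∉ T → Function.Surjective (dM (Cm n) (Cm q) g x))
    (e₁ : Cm n ≃L[ℂ] (Cm q × E₁)) (e₂ : Cm q ≃L[ℂ] (Cm p × ℂ)) {N : ℕ}
    {𝒜 : Set (Set X)} {ℬ : Set (Set Z)} {Θ : X → ℂ} {Ξ : Z → ℂ}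
    (hΘ : BdF g T e₁ N 𝒜 Θ) (hΞ : BdF h S e₂ N ℬ Ξ)
    (hdn : Dense {x | f x ∉ S ∧ g x ∉ T}) {x₀ x : X} (hx : x ∈ (chartAt (Cm n) x₀).source)
    {Den : X → ℂ} (hD : HolV (Cm n) Den x) (hne : ¬ ∀ᶠ w in 𝓝 x, Den w = 0) (h0 : Den x = 0)
    {U : Set X} (hU : U ∈ 𝓝 x) :
    ∃ y ∈ U, Den y = 0 ∧ ∀ (t : Y → ℂ) (PX : X → ℂ) (a : (Fin N → Fin p → Fin n) → X → ℂ),
      (∀ I, HolV (Cm n) (a I) y) →
      (∀ᶠ z in 𝓝 y, f z ∉ S → ∀ I,
        t (f z) * TL.minors (n := n) (p := p) N (id : X → X) f x₀ z I * PX z = a I z) →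
      (∀ᶠ z in 𝓝 y, Den z = 0 → f z ∈ S) →
      (∀ᶠ z in 𝓝 y, f z ∉ S → (∀ D ∈ ℬ, g z ∉ D) ∧ ∀ D ∈ 𝒜, z ∉ D) →
      ∃ C : ℝ, ∀ᶠ z in 𝓝 y, f z ∉ S → g z ∉ T →
        ‖t (f z) * (Ξ (g z) * Θ z) * PX z‖ ≤
          C * ‖jac (Cm n) (chartAt (Cm n) x₀ : X → Cm n) z ^ N‖ := by
  classical
  obtain ⟨κE, e₀, -, -⟩ := exists_split e₁ e₂
  obtain ⟨-, hlin2⟩ := hlin n p (ℂ × E₁) e₀
  obtain ⟨-, hlin2'⟩ := hlin n q E₁ e₁
  have hPsE : ∀ J : Fin p → Fin n, ∃ (P : Cm n →L[ℂ] (ℂ × E₁)) (s : (ℂ × E₁) →L[ℂ] Cm n),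
      Function.Injective J → Frm J P s := by
    intro J
    by_cases hJ : Function.Injective J
    · obtain ⟨P, s, h1, h2, h3⟩ := hlin2 J hJ
      exact ⟨P, s, fun _ => ⟨h1, h2, h3⟩⟩
    · exact ⟨0, 0, fun h => absurd h hJ⟩
  have hPsE' : ∀ J : Fin q → Fin n, ∃ (P : Cm n →L[ℂ] E₁) (s : E₁ →L[ℂ] Cm n),
      Function.Injective J → Frm J P s := by
    intro J
    by_cases hJ : Function.Injective J
    · obtain ⟨P, s, h1, h2, h3⟩ := hlin2' J hJ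
      exact ⟨P, s, fun _ => ⟨h1, h2, h3⟩⟩
    · exact ⟨0, 0, fun h => absurd h hJ⟩
  choose P s hPs using hPsE
  choose P' s' hPs' using hPsE'
  set φ := chartAt (Cm n) x₀ with hφ
  set ψ := chartAt (Cm p) (f x) with hψ
  set χ := chartAt (Cm q) (g x) with hχ
  have hψs : f x ∈ ψ.source := mem_chart_source _ _
  have hχs : g x ∈ χ.source := mem_chart_source _ _
  set F : Cm n → Cm p := (fun z => ψ (f z)) ∘ φ.symm with hFd
  set G : Cm n → Cm q := (fun z => χ (g z)) ∘ φ.symm with hGd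
  have hψf : HolV (Cm n) (fun z => ψ (f z)) x :=
    HolV.comp (h := (ψ : Y → Cm p)) (HolV.chart hψs) (hf x)
  have hχg : HolV (Cm n) (fun z => χ (g z)) x :=
    HolV.comp (h := (χ : Z → Cm q)) (HolV.chart hχs) (hg x)
  have hF : AnalyticAt ℂ F (φ x) := (hψf.rep hx).analyticAt
  have hG : AnalyticAt ℂ G (φ x) := (hχg.rep hx).analyticAt
  have hφst : Tendsto φ.symm (𝓝 (φ x)) (𝓝 x) := by
    have := (φ.continuousAt_symm (φ.map_source hx)).tendsto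
    rwa [φ.left_inv hx] at this
  have hUe : ∀ᶠ z in 𝓝 x, z ∈ U ∧ f z ∈ ψ.source ∧ g z ∈ χ.source := by
    filter_upwards [hU, (hf x).continuousAt.eventually (ψ.open_source.mem_nhds hψs),
      (hg x).continuousAt.eventually (χ.open_source.mem_nhds hχs)] with z h1 h2 h3
    exact ⟨h1, h2, h3⟩
  set bf : ((Fin p → Fin n) ⊕ (Fin q → Fin n) ⊕
      ((Fin p → Fin n) × Fin (Module.finrank ℂ (ℂ × E₁)) × Fin q)) → Cm n → ℂ :=
    Sum.elim (fun κ c => mnr (fderiv ℂ F c) κ) (Sum.elim (fun κ c => mnr (fderiv ℂ G c) κ)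
      (fun l c => fderiv ℂ G c (Lhat (fderiv ℂ F c) l.1 (s l.1)
        (Module.finBasis ℂ (ℂ × E₁) l.2.1)) l.2.2)) with hbf
  obtain ⟨c₂, hcU, hc0, e, he, he0, hde, hev, hgen'⟩ := hgen (Cm n) (Den ∘ φ.symm) (φ x)
    (hD.rep hx).analyticAt (by
      intro h1
      apply hne
      filter_upwards [(φ.continuousAt hx).eventually h1, φ.open_source.mem_nhds hx] with w h1 h2
      have h3 : Den (φ.symm (φ w)) = 0 := h1
      rwa [φ.left_inv h2] at h3) (by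
      show Den (φ.symm (φ x)) = 0
      rw [φ.left_inv hx]; exact h0) _ inferInstance bf (by
      rintro (κ | κ | l)
      · exact mnr_analytic hF κ
      · exact mnr_analytic hG κ
      · exact dLhat_analytic hF hG _ _ _ _)
    (φ.target ∩ {c | φ.symm c ∈ U ∧ f (φ.symm c) ∈ ψ.source ∧ g (φ.symm c) ∈ χ.source})
    (inter_mem (φ.open_target.mem_nhds (φ.map_source hx)) (hφst.eventually hUe))
  have hct : c₂ ∈ φ.target := hcU.1
  refine ⟨φ.symm c₂, hcU.2.1, hc0, fun t PX a ha hev' hDS hav => ?_⟩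
  have hst2 : Tendsto φ.symm (𝓝 c₂) (𝓝 (φ.symm c₂)) := (φ.continuousAt_symm hct).tendsto
  refine bd_flag hsl hlin hf hg hh hfe hsub hsubg e₁ e₂ hΘ hΞ (x₀ := x₀) (y₀ := f x) (ζ₀ := g x)
    (φ.map_target hct) hcU.2.2.1 hcU.2.2.2 ha hev' hdn (F := F) rfl (G := G) rfl
    (c₀ := c₂) (φ.right_inv hct).symm he he0 hde ?_
    (fun κ => hgen' (Sum.inl κ)) (fun κ => hgen' (Sum.inr (Sum.inl κ))) hPs hPs'
    (fun J j i => hgen' (Sum.inr (Sum.inr (J, j, i)))) hav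
  filter_upwards [hev, hst2.eventually hDS] with c h1 h2 h3
  exact h2 (h1.2 h3)

end

end Vale.Agent.P281.H308.TM
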