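import Vale.Agent.P281.H308.TM.FCore

/-! P281, project T-M (helper308), flag core: independence on the fibres is an open condition; the
form `Θ` does not vanish on a dense set. -/

open scoped Manifold ContDiff Topology
open Set Filter Metric Vale.Agent.P281 Vale.Agent.P272.K
open Vale.Agent.P281.MF Vale.Agent.P281.ISO Vale.Agent.P281.ELL Vale.Agent.P281.H713
open Vale.Agent.P281.H713.TZ

set_option linter.all false

noncomputable section

namespace Vale.Agent.P281.H308.TM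

section Ind

variable {n p q : ℕ} {X Z Y : Type} [TopologicalSpace X] [ChartedSpace (Cm n) X]
  [IsManifold 𝓘(ℂ, Cm n) ω X] [TopologicalSpace Z] [ChartedSpace (Cm q) Z]
  [IsManifold 𝓘(ℂ, Cm q) ω Z] [TopologicalSpace Y] [ChartedSpace (Cm p) Y]
  [IsManifold 𝓘(ℂ, Cm p) ω Y]

/-- independence on the fibres -/
def IndF (h : Z → Y) {r : ℕ} (ρ : Fin r → Z → ℂ) (z : Z) : Prop :=
  ∀ c : Fin r → ℂ, (∀ η, dM (Cm q) (Cm p) h z η = 0 →
    ∑ b, c b * dif (Cm q) (ρ b) z η = 0) → ∀ b, c b = 0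

/-- independence on the fibres is an open condition -/
theorem indF_open {h : Z → Y} (hh : ∀ z, HolM (Cm q) (Cm p) h z) {r : ℕ} {ρ : Fin r → Z → ℂ}
    {z₁ : Z} (hs : Function.Surjective (dM (Cm q) (Cm p) h z₁))
    (hρ : ∀ b, HolV (Cm q) (ρ b) z₁) (hi : IndF (p := p) (q := q) h ρ z₁) : ∀ᶠ z in 𝓝 z₁, IndF (p := p) (q := q) h ρ z := by
  classical
  set ψ := chartAt (Cm p) (h z₁) with hψ
  have hψs : h z₁ ∈ ψ.source := mem_chart_source _ _
  have hsrc : ∀ᶠ z in 𝓝 z₁, h z ∈ ψ.source :=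
    (hh z₁).continuousAt.eventually (ψ.open_source.mem_nhds hψs)
  have hprj : ∀ (j : Fin p) (w : Y), w ∈ ψ.source → HolV (Cm p) (fun y => ψ y j) w := by
    intro j w hw
    have h1 : HolV (Cm p) (ψ : Y → Cm p) w := HolV.chart hw
    exact (contMDiffAt_pi_space.1 h1) j
  let u : Fin p ⊕ Fin r → Z → ℂ := Sum.elim (fun j z => ψ (h z) j) ρ
  have hu : ∀ i, HolV (Cm q) (u i) z₁ := by
    rintro (j | b)
    · exact HolV.comp (h := fun y => ψ y j) (hprj j _ hψs) (hh z₁)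
    · exact hρ b
  have hdu : ∀ z, h z ∈ ψ.source → ∀ (j : Fin p) η, dif (Cm q) (u (Sum.inl j)) z η =
      dV (Cm p) (ψ : Y → Cm p) (h z) (dM (Cm q) (Cm p) h z η) j := by
    intro z hz j η
    have h1 := dif_comp (hprj j _ hz) (hh z)
    have h2 : dif (Cm p) (fun y => ψ y j) (h z) =
        (ContinuousLinearMap.proj (R := ℂ) (φ := fun _ : Fin p => ℂ) j).comp
          (dV (Cm p) (ψ : Y → Cm p) (h z)) := by
      have h3 := dV_comp_contDiff (G := fun v : Cm p => v j) (v := (ψ : Y → Cm p)) (x := h z)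
        ((ContinuousLinearMap.proj (R := ℂ) (φ := fun _ : Fin p => ℂ) j).contDiff.contDiffAt)
        (HolV.chart hz)
      rw [show fderiv ℂ (fun v : Cm p => v j) (ψ (h z)) =
        ContinuousLinearMap.proj (R := ℂ) (φ := fun _ : Fin p => ℂ) j from
        (ContinuousLinearMap.proj (R := ℂ) (φ := fun _ : Fin p => ℂ) j).fderiv] at h3
      exact h3
    rw [h2] at h1
    exact congrArg (fun T : Cm q →L[ℂ] ℂ => T η) h1
  have hψi : ∀ w ∈ ψ.source, Function.Injective (dV (Cm p) (ψ : Y → Cm p) w) := fun w hw =>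
    inj_of_det (jac_chart_ne_zero (x₀ := h z₁) hw)
  have hli : LinearIndependent ℂ (fun i => dif (Cm q) (u i) z₁) := by
    rw [Fintype.linearIndependent_iff]
    intro a ha
    rw [Fintype.sum_sum_type] at ha
    have ha' : ∀ η, ∑ j, a (Sum.inl j) * dV (Cm p) (ψ : Y → Cm p) (h z₁)
        (dM (Cm q) (Cm p) h z₁ η) j + ∑ b, a (Sum.inr b) * dif (Cm q) (ρ b) z₁ η = 0 := by
      intro η
      have h1 := congrArg (fun T : Cm q →L[ℂ] ℂ => T η) ha
      simp only [add_apply, sum_apply, smul_apply, smul_eq_mul, zero_apply] at h1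
      rw [← h1]
      congr 1
      exact Finset.sum_congr rfl fun j _ => by rw [hdu z₁ hψs]
    have h1 : ∀ b, a (Sum.inr b) = 0 := by
      refine hi (fun b => a (Sum.inr b)) fun η hη => ?_
      have h2 := ha' η
      rw [hη, map_zero] at h2
      simpa using h2
    have h2 : ∀ v : Cm p, ∑ j, a (Sum.inl j) * v j = 0 := by
      intro v
      obtain ⟨v', hv'⟩ := (LinearMap.injective_iff_surjective.1 (hψi _ hψs)) v
      obtain ⟨η, hη⟩ := hs v'
      have h3 := ha' η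
      simp only [h1, zero_mul, Finset.sum_const_zero, add_zero] at h3
      rw [hη, show dV (Cm p) (ψ : Y → Cm p) (h z₁) v' = v from hv'] at h3
      exact h3
    rintro (j | b)
    · have h3 := h2 (Pi.single j 1)
      simpa [Pi.single_apply] using h3
    · exact h1 b
  filter_upwards [linearIndependent_dif_eventually hu hli, hsrc] with z hz hzs c hc
  have h1 : (∑ b, c b • (dif (Cm q) (ρ b) z : Cm q →L[ℂ] ℂ) : Cm q →L[ℂ] ℂ).toLinearMap ∈
      Submodule.span ℂ (range fun j : Fin p =>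
        (dif (Cm q) (u (Sum.inl j)) z : Cm q →L[ℂ] ℂ).toLinearMap) := by
    refine mem_span_of_iInf_ker_le_ker ?_
    intro η hη
    rw [Submodule.mem_iInf] at hη
    rw [LinearMap.mem_ker]
    have h2 : dM (Cm q) (Cm p) h z η = 0 := by
      refine hψi _ hzs ?_
      rw [map_zero]
      funext j
      rw [← hdu z hzs j η]
      exact LinearMap.mem_ker.1 (hη j)
    have h3 := hc η h2
    show (∑ b, c b • (dif (Cm q) (ρ b) z : Cm q →L[ℂ] ℂ) : Cm q →L[ℂ] ℂ) η = 0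
    rw [sum_apply]
    exact h3
  obtain ⟨a, ha⟩ := (Submodule.mem_span_range_iff_exists_fun ℂ).1 h1
  rw [Fintype.linearIndependent_iff] at hz
  have h4 := hz (Sum.elim a fun b => - c b) (by
    rw [Fintype.sum_sum_type]
    refine ContinuousLinearMap.ext fun η => ?_
    have h5 := congrArg (fun T : Cm q →ₗ[ℂ] ℂ => T η) ha
    have h6 : ∑ j, a j * dif (Cm q) (u (Sum.inl j)) z η = ∑ b, c b * dif (Cm q) (ρ b) z η := by
      have h7 : (∑ j, a j • (dif (Cm q) (u (Sum.inl j)) z : Cm q →L[ℂ] ℂ).toLinearMap) η =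
          ∑ j, a j * dif (Cm q) (u (Sum.inl j)) z η := by
        rw [LinearMap.sum_apply]
        rfl
      have h8 : (∑ b, c b • (dif (Cm q) (ρ b) z : Cm q →L[ℂ] ℂ) : Cm q →L[ℂ] ℂ) η =
          ∑ b, c b * dif (Cm q) (ρ b) z η := by
        rw [sum_apply]
        rfl
      rw [← h7, ← h8]
      exact h5
    simp only [Sum.elim_inl, Sum.elim_inr, add_apply, sum_apply, smul_apply, smul_eq_mul,
      zero_apply, neg_mul, Finset.sum_neg_distrib]
    rw [h6]
    exact add_neg_cancel _)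
  intro b
  have h5 := h4 (Sum.inr b)
  exact neg_eq_zero.1 h5

/-- pull-back of independence on the fibres by a submersion -/
theorem indF_pull {f : X → Y} {g : X → Z} {h : Z → Y} (hfe : ∀ x, f x = h (g x)) {x : X}
    (hg : HolM (Cm n) (Cm q) g x) (hh : HolM (Cm q) (Cm p) h (g x)) {r : ℕ}
    {ρ : Fin r → Z → ℂ} (hρ : ∀ b, HolV (Cm q) (ρ b) (g x))
    (hs : Function.Surjective (dM (Cm n) (Cm q) g x)) (hi : IndF (p := p) (q := q) h ρ (g x)) (c : Fin r → ℂ)
    (hc : ∀ ξ, dM (Cm n) (Cm p) f x ξ = 0 →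
      ∑ b, c b * dif (Cm n) (fun x => ρ b (g x)) x ξ = 0) : ∀ b, c b = 0 := by
  refine hi c fun η hη => ?_
  obtain ⟨ξ, rfl⟩ := hs η
  have h1 : dM (Cm n) (Cm p) f x ξ = 0 := by
    rw [dM_chain hfe hg hh]
    exact hη
  rw [← hc ξ h1]
  refine Finset.sum_congr rfl fun b _ => ?_
  rw [dif_comp (hρ b) hg]
  rfl

end Ind

section Dense

variable {p : ℕ} {X Z : Type} [TopologicalSpace X] [ChartedSpace (Cm (p + 1)) X]
  [IsManifold 𝓘(ℂ, Cm (p + 1)) ω X] [TopologicalSpace Z] [ChartedSpace (Cm p) Z]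
  [IsManifold 𝓘(ℂ, Cm p) ω Z]

theorem dense_theta {g : X → Z} (hg : Continuous g) {S : Set Z} (hS : IsClosed S)
    (hd : Dense {x | g x ∉ S}) {w : ℕ} {Θ : X → ℂ}
    (hco : ∀ x, ∃ H, H740.TM.IsCoef p g S w Θ x H ∧ ¬ ∀ᶠ z in 𝓝 x, H z = 0) (x : X)
    {U : Set X} (hU : U ∈ 𝓝 x) : ∃ x' ∈ U, g x' ∉ S ∧ ∀ᶠ z in 𝓝 x', Θ z ≠ 0 := by
  obtain ⟨H, ⟨hH, hHe⟩, hne⟩ := hco x
  have hH' : HolV (Cm (p + 1)) H x := hH
  have hgo : IsOpen {x | g x ∉ S} := hS.isOpen_compl.preimage hg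
  have hall : ∀ᶠ z in 𝓝 x, z ∈ U ∧ z ∈ (chartAt (Cm (p + 1)) x).source ∧
      HolV (Cm (p + 1)) H z ∧ (g z ∉ S → jac (Cm p) (chartAt (Cm p) (g x)) (g z) ^ w * Θ z =
        H z * jac (Cm (p + 1)) (chartAt (Cm (p + 1)) x) z ^ w) := by
    filter_upwards [hU, (chartAt (Cm (p + 1)) x).open_source.mem_nhds (mem_chart_source _ x),
      HolV.eventually (E := Cm (p + 1)) hH', hHe] with z h1 h2 h3 h4
    exact ⟨h1, h2, h3, h4⟩
  obtain ⟨z₁, hz₁, hz₁e⟩ := ((ne_frequently hH' hne).self_of_nhds.and_eventually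
    hall.eventually_nhds).exists
  have h1 : ∀ᶠ z in 𝓝 z₁, H z ≠ 0 :=
    (HolV.continuousAt (E := Cm (p + 1)) hz₁e.self_of_nhds.2.2.1).eventually_ne hz₁
  obtain ⟨x', hx', h2, h3⟩ := ((mem_closure_iff_frequently.1 (hd z₁)).and_eventually
    (hz₁e.eventually_nhds.and h1.eventually_nhds)).exists
  refine ⟨x', h2.self_of_nhds.1, hx', ?_⟩
  filter_upwards [h2, h3, hgo.mem_nhds hx'] with z h4 h5 h6 h7
  have h8 := h4.2.2.2 h6
  rw [h7, mul_zero] at h8
  exact mul_ne_zero h5 (pow_ne_zero _ (jac_chart_ne_zero h4.2.1)) h8.symm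

end Dense

end Vale.Agent.P281.H308.TM
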