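import Mathlib.Analysis.Complex.AbsMax
import Mathlib.Analysis.Calculus.MeanValue
import Mathlib.Analysis.Calculus.Deriv.Inv

/-! P281, project T-M (helper308), flag core: two lemmas in one complex variable. -/

open Set Filter Metric
open scoped Topology

namespace Vale.Agent.P281.H308.TM

/-- a function whose derivative is close to `a` and which does not vanish is not small -/
theorem nonvan {η η' : ℂ → ℂ} {a : ℂ} {R : ℝ} (hR : 0 < R)
    (hη : ∀ t ∈ ball (0 : ℂ) R, HasDerivAt η (η' t) t) (h0 : ∀ t ∈ ball (0 : ℂ) R, η t ≠ 0)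
    (ha : ∀ t ∈ ball (0 : ℂ) R, ‖η' t - a‖ ≤ ‖a‖ / 2) : ‖a‖ * R / 8 ≤ ‖η 0‖ := by
  by_contra hcon
  push Not at hcon
  have hR2 : 0 < R / 2 := by linarith
  have hsub : closedBall (0 : ℂ) (R / 2) ⊆ ball 0 R := closedBall_subset_ball (by linarith)
  have h1 : ∀ t ∈ ball (0 : ℂ) R, ‖η t - η 0 - a * t‖ ≤ ‖a‖ / 2 * ‖t‖ := by
    intro t ht
    have h2 : ∀ s ∈ ball (0 : ℂ) R, HasDerivWithinAt (fun s => η s - a * s) (η' s - a) (ball 0 R) s :=
      fun s hs => ((hη s hs).sub ((hasDerivAt_id s).const_mul a |>.congr_deriv (by simp))).hasDerivWithinAt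
    have h3 := (convex_ball (0 : ℂ) R).norm_image_sub_le_of_norm_hasDerivWithin_le h2
      (fun s hs => ha s hs) (mem_ball_self hR) ht
    have h4 : η t - a * t - (η 0 - a * 0) = η t - η 0 - a * t := by ring
    rw [h4, sub_zero] at h3
    exact h3
  have h2 : ∀ t ∈ sphere (0 : ℂ) (R / 2), ‖a‖ * R / 8 ≤ ‖η t‖ := by
    intro t ht
    have h3 := h1 t (hsub (sphere_subset_closedBall ht))
    rw [mem_sphere_zero_iff_norm] at ht
    rw [ht] at h3
    have h4 : ‖a * t‖ = ‖a‖ * (R / 2) := by rw [norm_mul, ht]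
    have h5 : ‖a * t‖ ≤ ‖η t‖ + ‖η 0‖ + ‖η t - η 0 - a * t‖ := by
      have h6 : a * t = η t - η 0 - (η t - η 0 - a * t) := by ring
      calc ‖a * t‖ = ‖η t - η 0 - (η t - η 0 - a * t)‖ := by rw [← h6]
        _ ≤ ‖η t - η 0‖ + ‖η t - η 0 - a * t‖ := norm_sub_le _ _
        _ ≤ _ := by gcongr; exact norm_sub_le _ _
    rw [h4] at h5
    linarith
  have h3 : DiffContOnCl ℂ (fun t => (η t)⁻¹) (ball (0 : ℂ) (R / 2)) := by
    refine DifferentiableOn.diffContOnCl fun t ht => ?_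
    rw [closure_ball _ hR2.ne'] at ht
    exact ((hη t (hsub ht)).differentiableAt.inv (h0 t (hsub ht))).differentiableWithinAt
  rcases eq_or_ne a 0 with ha0 | ha0
  · rw [ha0, norm_zero, zero_mul, zero_div] at hcon
    exact absurd (norm_nonneg _) (not_le.2 hcon)
  have hpos : 0 < ‖a‖ * R / 8 := by
    have := norm_pos_iff.2 ha0
    positivity
  have h4 : ‖(η 0)⁻¹‖ ≤ (‖a‖ * R / 8)⁻¹ := by
    refine Complex.norm_le_of_forall_mem_frontier_norm_le isBounded_ball h3 (fun t ht => ?_)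
      (subset_closure (mem_ball_self hR2))
    rw [frontier_ball _ hR2.ne'] at ht
    rw [norm_inv]
    exact inv_anti₀ hpos (h2 t ht)
  rw [norm_inv] at h4
  have h5 : 0 < ‖η 0‖ := norm_pos_iff.2 (h0 0 (mem_ball_self hR))
  have h6 := (inv_le_inv₀ h5 hpos).1 h4
  linarith

/-- a function whose derivative has a bounded logarithmic derivative is injective on a ball of fixed
radius -/
theorem inj_of_log {χ χ' ρ : ℂ → ℂ} {M r : ℝ} (hM : 0 ≤ M) (hr : 0 < r) (hMr : M * r ≤ 1 / 4)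
    (hχ : ∀ t ∈ closedBall (0 : ℂ) r, HasDerivAt χ (χ' t) t)
    (hb : ∀ t ∈ closedBall (0 : ℂ) r, ‖χ' t‖ ≤ M * ‖χ t‖)
    (hρ : ∀ t ∈ closedBall (0 : ℂ) r, HasDerivAt ρ (χ t) t) (h0 : χ 0 ≠ 0) :
    InjOn ρ (closedBall (0 : ℂ) r) := by
  have hcv := convex_closedBall (0 : ℂ) r
  have h00 : (0 : ℂ) ∈ closedBall (0 : ℂ) r := mem_closedBall_self hr.le
  obtain ⟨s, hs, hmax⟩ := (isCompact_closedBall (0 : ℂ) r).exists_isMaxOn ⟨0, h00⟩
    (f := fun t => ‖χ t‖) (fun t ht => (hχ t ht).continuousAt.norm.continuousWithinAt)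
  set m := ‖χ s‖ with hm
  have hmx : ∀ t ∈ closedBall (0 : ℂ) r, ‖χ t‖ ≤ m := fun t ht => hmax ht
  have hd : ∀ t ∈ closedBall (0 : ℂ) r, ‖χ t - χ 0‖ ≤ M * m * r := by
    intro t ht
    have h2 := hcv.norm_image_sub_le_of_norm_hasDerivWithin_le
      (fun t ht => (hχ t ht).hasDerivWithinAt) (C := M * m)
      (fun t ht => (hb t ht).trans (by gcongr; exact hmx t ht)) h00 ht
    rw [sub_zero] at h2
    refine h2.trans ?_
    rw [mem_closedBall_zero_iff] at ht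
    have : 0 ≤ M * m := mul_nonneg hM (norm_nonneg _)
    gcongr
  have hm2 : m ≤ 2 * ‖χ 0‖ := by
    have h1 := hd s hs
    have h2 : m ≤ ‖χ s - χ 0‖ + ‖χ 0‖ := by
      calc m = ‖χ s - χ 0 + χ 0‖ := by rw [sub_add_cancel]
        _ ≤ _ := norm_add_le _ _
    have h3 : M * m * r ≤ m * (1 / 4) := by
      have : 0 ≤ m := norm_nonneg _
      calc M * m * r = m * (M * r) := by ring
        _ ≤ m * (1 / 4) := by gcongr
    linarith [norm_nonneg (χ 0)]
  have hd2 : ∀ t ∈ closedBall (0 : ℂ) r, ‖χ t - χ 0‖ ≤ ‖χ 0‖ / 2 := by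
    intro t ht
    refine (hd t ht).trans ?_
    calc M * m * r = m * (M * r) := by ring
      _ ≤ 2 * ‖χ 0‖ * (1 / 4) := by gcongr
      _ = ‖χ 0‖ / 2 := by ring
  intro t ht t' ht' heq
  have h2 : ∀ s ∈ closedBall (0 : ℂ) r, HasDerivWithinAt (fun s => ρ s - χ 0 * s) (χ s - χ 0)
      (closedBall 0 r) s :=
    fun s hs => ((hρ s hs).sub ((hasDerivAt_id s).const_mul (χ 0) |>.congr_deriv
      (by simp))).hasDerivWithinAt
  have h3 := hcv.norm_image_sub_le_of_norm_hasDerivWithin_le h2 (fun s hs => hd2 s hs) ht ht'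
  have h4 : ρ t' - χ 0 * t' - (ρ t - χ 0 * t) = -(χ 0 * (t' - t)) := by rw [heq]; ring
  rw [h4, norm_neg, norm_mul] at h3
  have h5 : 0 < ‖χ 0‖ := norm_pos_iff.2 h0
  have h6 : ‖t' - t‖ = 0 := by nlinarith [norm_nonneg (t' - t)]
  exact (sub_eq_zero.1 (norm_eq_zero.1 h6)).symm

end Vale.Agent.P281.H308.TM
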