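import Vale.Agent.P281.H308.TM.Dist
import Vale.Agent.P281.H308.TM.Slope
import Vale.Agent.P281.H511.Gen.Hyp

/-! P281, project T-M (helper308), flag core: the flag `L_g ⊂ L_f` at a generic point. -/

open scoped Manifold ContDiff Topology
open Set Filter Metric Vale.Agent.P281 Vale.Agent.P272.K
open Vale.Agent.P281.MF Vale.Agent.P281.ISO Vale.Agent.P281.ELL Vale.Agent.P281.H713
open Vale.Agent.P281.H713.TZ

set_option linter.all false

noncomputable section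

namespace Vale.Agent.P281.H308.TM

section Gen

variable {n p : ℕ} {E₀ : Type} [NormedAddCommGroup E₀] [NormedSpace ℂ E₀] [FiniteDimensional ℂ E₀]

/-- the derivative of a slice is the distribution -/
theorem slice_deriv {F : Cm n → Cm p} {L : Cm n → E₀ →L[ℂ] Cm n} {P : Cm n →L[ℂ] E₀}
    {Q : E₀ → Cm n} {v₀ : E₀} {r : ℝ} {y : Cm p}
    (hQd : ∀ v ∈ ball v₀ r, ContDiffAt ℂ ω Q v) (hFd : ∀ v ∈ ball v₀ r, DifferentiableAt ℂ F (Q v))
    (hFQ : ∀ v ∈ ball v₀ r, F (Q v) = y) (hPQ : ∀ v ∈ ball v₀ r, P (Q v) = v)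
    (hPL : ∀ c, P.comp (L c) = ContinuousLinearMap.id ℂ E₀)
    (hFL : ∀ v ∈ ball v₀ r, (fderiv ℂ F (Q v)).comp (L (Q v)) = 0)
    (hinj : ∀ v ∈ ball v₀ r, Function.Injective ((fderiv ℂ F (Q v)).prod P)) :
    ∀ v ∈ ball v₀ r, HasFDerivAt Q (L (Q v)) v := by
  intro v hv
  have hb : ball v₀ r ∈ 𝓝 v := isOpen_ball.mem_nhds hv
  have h1 : HasFDerivAt Q (fderiv ℂ Q v) v :=
    ((hQd v hv).differentiableAt (by simp)).hasFDerivAt
  have h2 : (fderiv ℂ F (Q v)).comp (fderiv ℂ Q v) = 0 := by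
    have h3 : HasFDerivAt (fun v => F (Q v)) ((fderiv ℂ F (Q v)).comp (fderiv ℂ Q v)) v :=
      (hFd v hv).hasFDerivAt.comp v h1
    have h4 : HasFDerivAt (fun v => F (Q v)) (0 : E₀ →L[ℂ] Cm p) v := by
      refine (hasFDerivAt_const y v).congr_of_eventuallyEq ?_
      filter_upwards [hb] with w hw using hFQ w hw
    exact h3.unique h4
  have h5 : P.comp (fderiv ℂ Q v) = ContinuousLinearMap.id ℂ E₀ := by
    have h3 : HasFDerivAt (fun v => P (Q v)) (P.comp (fderiv ℂ Q v)) v :=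
      P.hasFDerivAt.comp v h1
    have h4 : HasFDerivAt (fun v => P (Q v)) (ContinuousLinearMap.id ℂ E₀) v := by
      refine (hasFDerivAt_id v).congr_of_eventuallyEq ?_
      filter_upwards [hb] with w hw using hPQ w hw
    exact h3.unique h4
  have h6 : fderiv ℂ Q v = L (Q v) := by
    refine ContinuousLinearMap.ext fun ξ => ?_
    refine hinj v hv (Prod.ext ?_ ?_)
    · show fderiv ℂ F (Q v) (fderiv ℂ Q v ξ) = fderiv ℂ F (Q v) (L (Q v) ξ)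
      have a1 := congrArg (fun T : E₀ →L[ℂ] Cm p => T ξ) h2
      have a2 := congrArg (fun T : E₀ →L[ℂ] Cm p => T ξ) (hFL v hv)
      simp only [ContinuousLinearMap.comp_apply] at a1 a2
      rw [a1, a2]
    · show P (fderiv ℂ Q v ξ) = P (L (Q v) ξ)
      have a1 := congrArg (fun T : E₀ →L[ℂ] E₀ => T ξ) h5
      have a2 := congrArg (fun T : E₀ →L[ℂ] E₀ => T ξ) (hPL (Q v))
      simp only [ContinuousLinearMap.comp_apply] at a1 a2
      rw [a1, a2]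
  rw [← h6]
  exact h1

/-- the hypersurface `{e = 0}` is tangent to the fibres, if it is contained in the bad set -/
theorem tangent (hsl : SlicePart) (e₀ : Cm n ≃L[ℂ] (Cm p × E₀)) {F : Cm n → Cm p} {c₀ : Cm n}
    (hF : AnalyticAt ℂ F c₀) {e : Cm n → ℂ} (he : AnalyticAt ℂ e c₀) {B : Set (Cm n)}
    (hB1 : ∀ᶠ c in 𝓝 c₀, e c = 0 → c ∈ B) (hB2 : ∀ᶠ c in 𝓝 c₀, ∃ᶠ c' in 𝓝 c, c' ∉ B)
    {W₀ : Set (Cm n)} (hW₀ : W₀ ∈ 𝓝 c₀)
    (hB3 : ∀ c ∈ W₀, ∀ c' ∈ W₀, F c' = F c → c ∉ B → c' ∉ B)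
    {L : Cm n → E₀ →L[ℂ] Cm n} (hL : AnalyticAt ℂ L c₀) {P : Cm n →L[ℂ] E₀}
    (hPL : ∀ c, P.comp (L c) = ContinuousLinearMap.id ℂ E₀)
    (hFL : ∀ᶠ c in 𝓝 c₀, (fderiv ℂ F c).comp (L c) = 0)
    (hinj : ∀ᶠ c in 𝓝 c₀, e c ≠ 0 → Function.Injective ((fderiv ℂ F c).prod P)) (b : E₀) :
    ∀ᶠ c in 𝓝 c₀, e c = 0 → fderiv ℂ e c (L c b) = 0 := by
  have hall : ∀ᶠ c in 𝓝 c₀, AnalyticAt ℂ F c ∧ AnalyticAt ℂ e c ∧ (e c = 0 → c ∈ B) ∧
      (∃ᶠ c' in 𝓝 c, c' ∉ B) ∧ AnalyticAt ℂ L c ∧ (fderiv ℂ F c).comp (L c) = 0 ∧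
      (e c ≠ 0 → Function.Injective ((fderiv ℂ F c).prod P)) ∧ c ∈ W₀ := by
    filter_upwards [hF.eventually_analyticAt, he.eventually_analyticAt, hB1, hB2,
      hL.eventually_analyticAt, hFL, hinj, hW₀] with c h1 h2 h3 h4 h5 h6 h7 h8
    exact ⟨h1, h2, h3, h4, h5, h6, h7, h8⟩
  obtain ⟨O, hO, hOo, hc₀O⟩ := _root_.eventually_nhds_iff.1 hall
  filter_upwards [hOo.mem_nhds hc₀O] with c₁ hc₁ hec₁
  by_contra hγ
  have hOn : ∀ᶠ c in 𝓝 c₁, c ∈ O := hOo.mem_nhds hc₁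
  obtain ⟨hF₁, he₁, -, hfr₁, hL₁, -, -, -⟩ := hO c₁ hc₁
  set γ : Cm n → ℂ := fun c => fderiv ℂ e c (L c b) with hγd
  have hγa : ContinuousAt γ c₁ := by
    have h1 : ContinuousAt (fderiv ℂ e) c₁ := he₁.fderiv.continuousAt
    have h2 : ContinuousAt (fun c => L c b) c₁ := hL₁.continuousAt.clm_apply continuousAt_const
    exact h1.clm_apply h2
  have hγ0 : 0 < ‖γ c₁‖ / 2 := by
    have := norm_pos_iff.2 hγ
    positivity
  set W : Set (Cm n) := O ∩ {c | ‖γ c - γ c₁‖ ≤ ‖γ c₁‖ / 2} with hW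
  have hWn : W ∈ 𝓝 c₁ := by
    refine inter_mem (hOo.mem_nhds hc₁) ?_
    have h1 : ∀ᶠ c in 𝓝 c₁, ‖γ c - γ c₁‖ < ‖γ c₁‖ / 2 := by
      have h2 : ContinuousAt (fun c => ‖γ c - γ c₁‖) c₁ := (hγa.sub continuousAt_const).norm
      refine h2.eventually_lt continuousAt_const ?_
      rw [sub_self, norm_zero]
      exact hγ0
    exact h1.mono fun c hc => hc.le
  obtain ⟨r, hr, hslc⟩ := hsl (Cm n) (Cm p) E₀ e₀ F c₁ hF₁ L hL₁ P
    (Eventually.of_forall hPL) (hOn.mono fun c hc => (hO c hc).2.2.2.2.2.1) W hWn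
  -- the radius in the direction `b`
  obtain ⟨R, hR, hRb⟩ : ∃ R : ℝ, 0 < R ∧ R * ‖b‖ < r := by
    refine ⟨r / (‖b‖ + 1), by positivity, ?_⟩
    rw [div_mul_eq_mul_div, div_lt_iff₀ (by positivity)]
    nlinarith [norm_nonneg b]
  have hsmall : ∀ᶠ c in 𝓝 c₁, ‖e c‖ < ‖γ c₁‖ * R / 8 := by
    have h1 : ContinuousAt (fun c => ‖e c‖) c₁ := he₁.continuousAt.norm
    refine h1.eventually_lt continuousAt_const ?_
    rw [hec₁, norm_zero]
    have := norm_pos_iff.2 hγ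
    positivity
  obtain ⟨c, hcB, hcO, hcs, hcl⟩ := (hfr₁.and_eventually (hOn.and (hslc.and hsmall))).exists
  have hgood : ∀ c' ∈ W, F c' = F c → c' ∉ B ∧ e c' ≠ 0 ∧
      Function.Injective ((fderiv ℂ F c').prod P) := by
    intro c' hc' hcc
    obtain ⟨-, -, g3, -, -, -, g7, g8⟩ := hO c' hc'.1
    have h1 : c' ∉ B := hB3 c (hO c hcO).2.2.2.2.2.2.2 c' g8 hcc hcB
    have h2 : e c' ≠ 0 := fun h => h1 (g3 h)
    exact ⟨h1, h2, g7 h2⟩
  obtain ⟨Q, hQ1, hQ⟩ := hcs (fun c' hc' hcc => (hgood c' hc' hcc).2.2)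
  have hQd : ∀ v ∈ ball (P c) r, HasFDerivAt Q (L (Q v)) v :=
    slice_deriv (F := F) (y := F c) (fun v hv => (hQ v hv).1)
      (fun v hv => (hO _ (hQ v hv).2.1.1).1.differentiableAt)
      (fun v hv => (hQ v hv).2.2.1) (fun v hv => (hQ v hv).2.2.2) hPL
      (fun v hv => (hO _ (hQ v hv).2.1.1).2.2.2.2.2.1)
      (fun v hv => (hgood _ (hQ v hv).2.1 (hQ v hv).2.2.1).2.2)
  have hmem : ∀ t ∈ ball (0 : ℂ) R, P c + t • b ∈ ball (P c) r := by
    intro t ht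
    rw [mem_ball_zero_iff] at ht
    rw [mem_ball_iff_norm, add_sub_cancel_left, norm_smul]
    exact lt_of_le_of_lt (by gcongr) hRb
  have hfin := nonvan (η := fun t => e (Q (P c + t • b)))
    (η' := fun t => γ (Q (P c + t • b))) (a := γ c₁) hR (fun t ht => by
      have h1 := hQd _ (hmem t ht)
      have h2 : HasDerivAt (fun t : ℂ => P c + t • b) b t := by
        have h3 := ((hasDerivAt_id t).smul_const b).const_add (P c)
        rw [one_smul] at h3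
        exact h3
      have h3 : HasDerivAt (fun t : ℂ => Q (P c + t • b)) (L (Q (P c + t • b)) b) t :=
        h1.comp_hasDerivAt t h2
      exact ((hO _ (hQ _ (hmem t ht)).2.1.1).2.1.differentiableAt).hasFDerivAt.comp_hasDerivAt
        t h3)
    (fun t ht => (hgood _ (hQ _ (hmem t ht)).2.1 (hQ _ (hmem t ht)).2.2.1).2.1)
    (fun t ht => (hQ _ (hmem t ht)).2.1.2)
  simp only [zero_smul, add_zero, hQ1] at hfin
  exact absurd hcl (not_lt.2 hfin)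

end Gen

section Flag

variable {n p q : ℕ} {E₁ : Type} [NormedAddCommGroup E₁] [NormedSpace ℂ E₁]
  [FiniteDimensional ℂ E₁]

/-- the frame `(s, v) ↦ s b + (v - s P'(L b))` read through `P` -/
def Tm (P : Cm n →L[ℂ] (ℂ × E₁)) (P' : Cm n →L[ℂ] E₁) (L : (ℂ × E₁) →L[ℂ] Cm n)
    (L' : E₁ →L[ℂ] Cm n) (b : ℂ × E₁) : (ℂ × E₁) →L[ℂ] (ℂ × E₁) :=
  (ContinuousLinearMap.fst ℂ ℂ E₁).smulRight b + (P.comp L').comp
    (ContinuousLinearMap.snd ℂ ℂ E₁ - (ContinuousLinearMap.fst ℂ ℂ E₁).smulRight (P' (L b)))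

theorem Tm_apply (P : Cm n →L[ℂ] (ℂ × E₁)) (P' : Cm n →L[ℂ] E₁) (L : (ℂ × E₁) →L[ℂ] Cm n)
    (L' : E₁ →L[ℂ] Cm n) (b : ℂ × E₁) (s : ℂ) (v : E₁) :
    Tm P P' L L' b (s, v) = s • b + P (L' (v - s • P' (L b))) := rfl

theorem det_ne {V : Type} [NormedAddCommGroup V] [NormedSpace ℂ V] [FiniteDimensional ℂ V]
    {A : V →L[ℂ] V} (h : Function.Injective A) : A.det ≠ 0 := by
  have h1 : IsUnit (A : V →ₗ[ℂ] V) := (LinearMap.isUnit_iff_ker_eq_bot _).2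
    (LinearMap.ker_eq_bot.2 h)
  exact ((LinearMap.isUnit_iff_isUnit_det _).1 h1).ne_zero

theorem inj_of_det {V : Type} [NormedAddCommGroup V] [NormedSpace ℂ V] [FiniteDimensional ℂ V]
    {A : V →L[ℂ] V} (h : A.det ≠ 0) : Function.Injective A := by
  have h1 : IsUnit (A : V →ₗ[ℂ] V) := (LinearMap.isUnit_iff_isUnit_det _).2
    (isUnit_iff_ne_zero.2 h)
  exact LinearMap.ker_eq_bot.1 ((LinearMap.isUnit_iff_ker_eq_bot _).1 h1)

/-- **the flag at a generic point** -/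
theorem flag (hsl : SlicePart) (e₀ : Cm n ≃L[ℂ] (Cm p × (ℂ × E₁))) {F : Cm n → Cm p}
    {G : Cm n → Cm q} {c₀ : Cm n} (hF : AnalyticAt ℂ F c₀) (hG : AnalyticAt ℂ G c₀)
    {e : Cm n → ℂ} (he : AnalyticAt ℂ e c₀) (he0 : e c₀ = 0) (hde : fderiv ℂ e c₀ ≠ 0)
    {B : Set (Cm n)}
    (hB1 : ∀ᶠ c in 𝓝 c₀, e c = 0 → c ∈ B) (hB2 : ∀ᶠ c in 𝓝 c₀, ∃ᶠ c' in 𝓝 c, c' ∉ B)
    {W₀ : Set (Cm n)} (hW₀ : W₀ ∈ 𝓝 c₀)
    (hB3 : ∀ c ∈ W₀, ∀ c' ∈ W₀, F c' = F c → c ∉ B → c' ∉ B)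
    {J : Fin p → Fin n} {k : ℕ} {u : Cm n → ℂ} {L : Cm n → (ℂ × E₁) →L[ℂ] Cm n}
    {P : Cm n →L[ℂ] (ℂ × E₁)} {s : (ℂ × E₁) →L[ℂ] Cm n}
    (hu : AnalyticAt ℂ u c₀) (hu0 : u c₀ ≠ 0)
    (hμ : ∀ᶠ c in 𝓝 c₀, mnr (fderiv ℂ F c) J = e c ^ k * u c) (hL : AnalyticAt ℂ L c₀)
    (hPL : ∀ c, P.comp (L c) = ContinuousLinearMap.id ℂ (ℂ × E₁))
    (hhat : ∀ᶠ c in 𝓝 c₀, mnr (fderiv ℂ F c) J • L c = Lhat (fderiv ℂ F c) J s)
    (hFL : ∀ᶠ c in 𝓝 c₀, (fderiv ℂ F c).comp (L c) = 0)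
    (hinj : ∀ᶠ c in 𝓝 c₀, e c ≠ 0 → Function.Injective ((fderiv ℂ F c).prod P))
    {L' : Cm n → E₁ →L[ℂ] Cm n} {P' : Cm n →L[ℂ] E₁} (hL' : AnalyticAt ℂ L' c₀)
    (hPL' : ∀ c, P'.comp (L' c) = ContinuousLinearMap.id ℂ E₁)
    (hGL' : ∀ᶠ c in 𝓝 c₀, (fderiv ℂ G c).comp (L' c) = 0)
    (hinj' : ∀ᶠ c in 𝓝 c₀, e c ≠ 0 → Function.Injective ((fderiv ℂ G c).prod P'))
    (hker : ∀ᶠ c in 𝓝 c₀, ∀ ξ, fderiv ℂ G c ξ = 0 → fderiv ℂ F c ξ = 0)
    (hord : ∀ (j : Fin (Module.finrank ℂ (ℂ × E₁))) (a : Fin q),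
      (∀ᶠ c in 𝓝 c₀, fderiv ℂ G c (Lhat (fderiv ℂ F c) J s (Module.finBasis ℂ (ℂ × E₁) j)) a = 0) ∨
      ∃ (k : ℕ) (u : Cm n → ℂ), AnalyticAt ℂ u c₀ ∧ u c₀ ≠ 0 ∧ ∀ᶠ c in 𝓝 c₀,
        fderiv ℂ G c (Lhat (fderiv ℂ F c) J s (Module.finBasis ℂ (ℂ × E₁) j)) a = e c ^ k * u c) :
    ∃ (b : ℂ × E₁) (a : Fin q) (M : ℝ), 0 ≤ M ∧
      (∀ᶠ c in 𝓝 c₀, e c ≠ 0 → fderiv ℂ G c (L c b) a ≠ 0) ∧
      (∀ᶠ c in 𝓝 c₀, e c ≠ 0 → ‖fderiv ℂ (fun c => fderiv ℂ G c (L c b) a) c (L c b)‖ ≤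
        M * ‖fderiv ℂ G c (L c b) a‖) ∧ (Tm P P' (L c₀) (L' c₀) b).det ≠ 0 := by
  classical
  have hFd : AnalyticAt ℂ (fderiv ℂ F) c₀ := hF.fderiv
  have hGd : AnalyticAt ℂ (fderiv ℂ G) c₀ := hG.fderiv
  have hne : ∀ᶠ c in 𝓝 c₀, ∃ᶠ c' in 𝓝 c, e c' ≠ 0 := by
    filter_upwards [hB2, hB1.eventually_nhds] with c h1 h2
    exact (h1.and_eventually h2).mono fun c' h h0 => h.1 (h.2 h0)
  -- `L_g ⊂ L_f`
  have h1 : ∀ᶠ c in 𝓝 c₀, (L c).comp (P.comp (L' c)) = L' c := by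
    have h2 : ∀ᶠ c in 𝓝 c₀, e c ≠ 0 → (L c).comp (P.comp (L' c)) = L' c := by
      filter_upwards [hinj, hFL, hGL', hker] with c a1 a2 a3 a4 hc
      refine ContinuousLinearMap.ext fun v => a1 hc (Prod.ext ?_ ?_)
      · show fderiv ℂ F c (L c (P (L' c v))) = fderiv ℂ F c (L' c v)
        have a5 := congrArg (fun T : (ℂ × E₁) →L[ℂ] Cm p => T (P (L' c v))) a2
        have a6 := congrArg (fun T : E₁ →L[ℂ] Cm q => T v) a3
        simp only [ContinuousLinearMap.comp_apply] at a5 a6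
        rw [a5, a4 _ a6]
        rfl
      · show P (L c (P (L' c v))) = P (L' c v)
        have a5 := congrArg (fun T : (ℂ × E₁) →L[ℂ] (ℂ × E₁) => T (P (L' c v))) (hPL c)
        simp only [ContinuousLinearMap.comp_apply] at a5
        rw [a5]
        rfl
    filter_upwards [hne, h2.eventually_nhds, hL.eventually_analyticAt,
      hL'.eventually_analyticAt] with c a1 a2 a3 a4
    by_contra hcon
    have h5 : ContinuousAt (fun c => (L c).comp (P.comp (L' c)) - L' c) c :=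
      (a3.continuousAt.clm_comp (continuousAt_const.clm_comp a4.continuousAt)).sub a4.continuousAt
    obtain ⟨c', h6, h7, h8⟩ := (a1.and_eventually (a2.and
      (h5.eventually_ne (sub_ne_zero.2 hcon)))).exists
    exact h8 (sub_eq_zero.2 (h7 h6))
  -- the vector `b`
  obtain ⟨j, hj⟩ : ∃ j, Module.finBasis ℂ (ℂ × E₁) j ∉
      LinearMap.range ((P.comp (L' c₀) : E₁ →L[ℂ] (ℂ × E₁)) : E₁ →ₗ[ℂ] (ℂ × E₁)) := by
    by_contra hcon
    push Not at hcon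
    have h2 : LinearMap.range ((P.comp (L' c₀) : E₁ →L[ℂ] (ℂ × E₁)) : E₁ →ₗ[ℂ] (ℂ × E₁)) = ⊤ := by
      rw [eq_top_iff, ← (Module.finBasis ℂ (ℂ × E₁)).span_eq, Submodule.span_le]
      rintro _ ⟨j, rfl⟩
      exact hcon j
    have h3 := LinearMap.finrank_range_le ((P.comp (L' c₀) : E₁ →L[ℂ] (ℂ × E₁)) :
      E₁ →ₗ[ℂ] (ℂ × E₁))
    rw [h2, finrank_top, Module.finrank_prod, Module.finrank_self] at h3
    omega
  set b := Module.finBasis ℂ (ℂ × E₁) j with hb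
  have hT0 : (Tm P P' (L c₀) (L' c₀) b).det ≠ 0 := by
    refine det_ne ?_
    rw [← ContinuousLinearMap.coe_coe, ← LinearMap.ker_eq_bot, LinearMap.ker_eq_bot']
    rintro ⟨s', v⟩ h2
    rw [ContinuousLinearMap.coe_coe, Tm_apply] at h2
    have hs : s' = 0 := by
      by_contra hs
      apply hj
      refine ⟨-(s'⁻¹ • (v - s' • P' (L c₀ b))), ?_⟩
      show P (L' c₀ (-(s'⁻¹ • (v - s' • P' (L c₀ b))))) = b
      rw [map_neg, map_neg, map_smul, map_smul]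
      have h3 : P (L' c₀ (v - s' • P' (L c₀ b))) = -(s' • b) := by
        rw [eq_neg_iff_add_eq_zero, add_comm]
        exact h2
      rw [h3, smul_neg, neg_neg, smul_smul, inv_mul_cancel₀ hs, one_smul]
    rw [hs, zero_smul, zero_smul, zero_add, sub_zero] at h2
    have h3 : L' c₀ v = 0 := by
      have h4 := congrArg (fun T : E₁ →L[ℂ] Cm n => T v) h1.self_of_nhds
      simp only [ContinuousLinearMap.comp_apply] at h4
      rw [← h4, h2, map_zero]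
    have h4 := congrArg (fun T : E₁ →L[ℂ] E₁ => T v) (hPL' c₀)
    simp only [ContinuousLinearMap.comp_apply] at h4
    rw [h3, map_zero] at h4
    rw [hs]
    exact Prod.ext rfl h4.symm
  -- the components of `w`
  have hTc : ContinuousAt (fun c => (Tm P P' (L c) (L' c) b).det) c₀ := by
    have h2 : ContinuousAt (fun c => Tm P P' (L c) (L' c) b) c₀ := by
      unfold Tm
      refine continuousAt_const.add ?_
      refine (continuousAt_const.clm_comp hL'.continuousAt).clm_comp (continuousAt_const.sub ?_)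
      have h3 : ContinuousAt (fun c => P' (L c b)) c₀ :=
        P'.continuous.continuousAt.comp (hL.continuousAt.clm_apply continuousAt_const)
      have h4 : ContinuousAt (fun v : E₁ => (ContinuousLinearMap.fst ℂ ℂ E₁).smulRight v)
          (P' (L c₀ b)) :=
        (ContinuousLinearMap.smulRightL ℂ (ℂ × E₁) E₁
          (ContinuousLinearMap.fst ℂ ℂ E₁)).continuous.continuousAt
      exact ContinuousAt.comp (g := fun v : E₁ => (ContinuousLinearMap.fst ℂ ℂ E₁).smulRight v)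
        (f := fun c => P' (L c b)) h4 h3
    exact (contDiff_det (V := ℂ × E₁)).continuous.continuousAt.comp h2
  have hTn : ∀ᶠ c in 𝓝 c₀, (Tm P P' (L c) (L' c) b).det ≠ 0 := hTc.eventually_ne hT0
  have hwne : ∀ᶠ c in 𝓝 c₀, e c ≠ 0 → fderiv ℂ G c (L c b) ≠ 0 := by
    filter_upwards [hTn, hinj', hGL'] with c a1 a2 a3 hc h0
    have a4 : L c b = L' c (P' (L c b)) := by
      refine a2 hc (Prod.ext ?_ ?_)
      · show fderiv ℂ G c (L c b) = fderiv ℂ G c (L' c (P' (L c b)))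
        have a5 := congrArg (fun T : E₁ →L[ℂ] Cm q => T (P' (L c b))) a3
        simp only [ContinuousLinearMap.comp_apply] at a5
        rw [h0, a5]
        rfl
      · show P' (L c b) = P' (L' c (P' (L c b)))
        have a5 := congrArg (fun T : E₁ →L[ℂ] E₁ => T (P' (L c b))) (hPL' c)
        simp only [ContinuousLinearMap.comp_apply] at a5
        rw [a5]
        rfl
    have a5 : Tm P P' (L c) (L' c) b (1, 0) = 0 := by
      rw [Tm_apply, one_smul, one_smul, zero_sub, map_neg, map_neg, ← a4]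
      have a6 := congrArg (fun T : (ℂ × E₁) →L[ℂ] (ℂ × E₁) => T b) (hPL c)
      simp only [ContinuousLinearMap.comp_apply] at a6
      rw [a6]
      exact add_neg_cancel b
    have a6 := inj_of_det a1 (a5.trans (map_zero _).symm)
    exact one_ne_zero (congrArg Prod.fst a6)
  obtain ⟨a, kw, uw, huw, huw0, hwe⟩ : ∃ (a : Fin q) (k : ℕ) (u : Cm n → ℂ), AnalyticAt ℂ u c₀ ∧
      u c₀ ≠ 0 ∧ ∀ᶠ c in 𝓝 c₀, fderiv ℂ G c (Lhat (fderiv ℂ F c) J s b) a = e c ^ k * u c := by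
    by_contra hcon
    have h2 : ∀ a, ∀ᶠ c in 𝓝 c₀, fderiv ℂ G c (Lhat (fderiv ℂ F c) J s b) a = 0 := by
      intro a
      rcases hord j a with h3 | ⟨k', u', h3, h4, h5⟩
      · exact h3
      · exact absurd ⟨a, k', u', h3, h4, h5⟩ hcon
    have h3 := Filter.eventually_all.2 h2
    obtain ⟨c, g1, g2, g3, g4, g5, g6⟩ := (hne.self_of_nhds.and_eventually (h3.and (hwne.and
      (hhat.and (hμ.and (hu.continuousAt.eventually_ne hu0)))))).exists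
    apply g3 g1
    have g7 : mnr (fderiv ℂ F c) J • fderiv ℂ G c (L c b) = 0 := by
      rw [← map_smul]
      have g8 := congrArg (fun T : (ℂ × E₁) →L[ℂ] Cm n => T b) g4
      simp only [ContinuousLinearMap.smul_apply] at g8
      rw [g8]
      funext a
      exact g2 a
    refine (smul_eq_zero.1 g7).resolve_left ?_
    rw [g5]
    exact mul_ne_zero (pow_ne_zero _ g1) g6
  set w : Cm n → ℂ := fun c => fderiv ℂ G c (L c b) a with hw
  have hwa : AnalyticAt ℂ w c₀ := by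
    have h2 : AnalyticAt ℂ (fun c => fderiv ℂ G c (L c b)) c₀ :=
      (hGd.contDiffAt.clm_apply (hL.contDiffAt.clm_apply contDiffAt_const)).analyticAt
    exact (ContinuousLinearMap.proj (R := ℂ) (φ := fun _ : Fin q => ℂ) a).analyticAt _ |>.comp h2
  have hwμ : ∀ᶠ c in 𝓝 c₀, e c ^ k * u c * w c = e c ^ kw * uw c := by
    filter_upwards [hwe, hμ, hhat] with c g1 g2 g3
    have g4 := congrArg (fun T : (ℂ × E₁) →L[ℂ] Cm n => T b) g3
    simp only [ContinuousLinearMap.smul_apply] at g4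
    rw [← g1, ← g4, map_smul, ← g2]
    rfl
  have hle : k ≤ kw := by
    by_contra hcon
    push Not at hcon
    obtain ⟨m, hm⟩ : ∃ m, k = kw + (m + 1) := ⟨k - kw - 1, by omega⟩
    have h2 : ∀ᶠ c in 𝓝 c₀, e c ≠ 0 → e c ^ (m + 1) * u c * w c = uw c := by
      filter_upwards [hwμ] with c g1 g2
      rw [hm, pow_add] at g1
      refine mul_left_cancel₀ (pow_ne_zero kw g2) ?_
      rw [← g1]
      ring
    have h3 : ContinuousAt (fun c => e c ^ (m + 1) * u c * w c - uw c) c₀ :=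
      (((he.continuousAt.pow _).mul hu.continuousAt).mul hwa.continuousAt).sub huw.continuousAt
    have h4 : e c₀ ^ (m + 1) * u c₀ * w c₀ - uw c₀ ≠ 0 := by
      rw [he0, zero_pow (by omega), zero_mul, zero_mul, zero_sub]
      exact neg_ne_zero.2 huw0
    obtain ⟨c, g1, g2, g3⟩ := (hne.self_of_nhds.and_eventually (h2.and
      (h3.eventually_ne h4))).exists
    exact g3 (sub_eq_zero.2 (g2 g1))
  -- `w = e ^ l * U`
  set U : Cm n → ℂ := fun c => uw c * (u c)⁻¹ with hU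
  have hUa : AnalyticAt ℂ U c₀ := huw.mul (hu.inv hu0)
  have hU0 : U c₀ ≠ 0 := mul_ne_zero huw0 (inv_ne_zero hu0)
  have hwU : ∀ᶠ c in 𝓝 c₀, e c ≠ 0 → w c = e c ^ (kw - k) * U c := by
    filter_upwards [hwμ, hu.continuousAt.eventually_ne hu0] with c g1 g2 g3
    have g4 : e c ^ kw = e c ^ k * e c ^ (kw - k) := by rw [← pow_add, Nat.add_sub_cancel' hle]
    rw [g4] at g1
    refine mul_left_cancel₀ (mul_ne_zero (pow_ne_zero k g3) g2) ?_
    rw [g1]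
    simp only [hU]
    field_simp
  -- tangency
  have htan := tangent hsl e₀ hF he hB1 hB2 hW₀ hB3 hL hPL hFL hinj b
  have hγa : AnalyticAt ℂ (fun c => fderiv ℂ e c (L c b)) c₀ :=
    (he.fderiv.contDiffAt.clm_apply (hL.contDiffAt.clm_apply contDiffAt_const)).analyticAt
  obtain ⟨β, hβ, hβe⟩ := H511.Gen.exists_factor (X := Cm n) (n := n) (z := c₀) (e := e)
    (h := fun c => fderiv ℂ e c (L c b))
    (contMDiffAt_iff_contDiffAt.2 he.contDiffAt) he0 (by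
      show mfderiv 𝓘(ℂ, Cm n) 𝓘(ℂ, ℂ) e c₀ ≠ 0
      rw [mfderiv_eq_fderiv]
      exact hde) (contMDiffAt_iff_contDiffAt.2 hγa.contDiffAt) htan
  have hβa : AnalyticAt ℂ β c₀ := (contMDiffAt_iff_contDiffAt.1 hβ).analyticAt
  set N : Cm n → ℂ := fun c => (kw - k : ℕ) * β c * U c + fderiv ℂ U c (L c b) with hN
  have hNa : AnalyticAt ℂ N c₀ := ((analyticAt_const.mul hβa).mul hUa).add
    (hUa.fderiv.contDiffAt.clm_apply (hL.contDiffAt.clm_apply contDiffAt_const)).analyticAt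
  have hdw : ∀ᶠ c in 𝓝 c₀, e c ≠ 0 → fderiv ℂ w c (L c b) = e c ^ (kw - k) * N c := by
    filter_upwards [hwU.eventually_nhds, he.eventually_analyticAt, hUa.eventually_analyticAt,
      hβe] with c g1 g2 g3 g4 g5
    have g6 : w =ᶠ[𝓝 c] fun c => e c ^ (kw - k) * U c := by
      filter_upwards [g1, g2.continuousAt.eventually_ne g5] with c' h2 h3
      exact h2 h3
    rw [g6.fderiv_eq]
    have g7 : HasFDerivAt (fun c => e c ^ (kw - k) * U c)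
        (e c ^ (kw - k) • fderiv ℂ U c + U c • (((kw - k : ℕ) * e c ^ (kw - k - 1)) •
          fderiv ℂ e c)) c := by
      have h2 : HasFDerivAt (fun c => e c ^ (kw - k))
          (((kw - k : ℕ) * e c ^ (kw - k - 1)) • fderiv ℂ e c) c := by
        have h3 := (g2.differentiableAt.hasFDerivAt).pow (kw - k)
        refine h3.congr_fderiv ?_
        simp [nsmul_eq_mul, smul_smul]
      exact h2.mul g3.differentiableAt.hasFDerivAt
    rw [g7.fderiv]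
    have g8 : fderiv ℂ e c (L c b) = e c * β c := g4
    simp only [ContinuousLinearMap.add_apply, ContinuousLinearMap.smul_apply, smul_eq_mul, g8, hN]
    rcases Nat.eq_zero_or_pos (kw - k) with h0 | h0
    · rw [h0]
      simp
    · obtain ⟨m, hm⟩ : ∃ m, kw - k = m + 1 := ⟨kw - k - 1, by omega⟩
      rw [hm, Nat.add_sub_cancel, pow_succ]
      ring
  have key : ∀ᶠ c in 𝓝 c₀, e c ≠ 0 → ‖fderiv ℂ w c (L c b)‖ ≤
      (‖N c₀‖ + 1) * (2 / ‖U c₀‖) * ‖w c‖ := by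
    have hUn : 0 < ‖U c₀‖ := norm_pos_iff.2 hU0
    filter_upwards [hdw, hwU, hNa.continuousAt.norm.eventually_lt_const (lt_add_one _),
      hUa.continuousAt.norm.eventually_const_lt (half_lt_self hUn)] with c g1 g2 g3 g4 g5
    have g6 : 1 ≤ 2 / ‖U c₀‖ * ‖U c‖ := by
      rw [div_mul_eq_mul_div, le_div_iff₀ hUn]
      linarith
    have g7 : ‖fderiv ℂ w c (L c b)‖ = ‖e c ^ (kw - k)‖ * ‖N c‖ := by rw [g1 g5, norm_mul]
    have g8 : ‖w c‖ = ‖e c ^ (kw - k)‖ * ‖U c‖ := by rw [g2 g5, norm_mul]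
    rw [g7, g8]
    calc ‖e c ^ (kw - k)‖ * ‖N c‖ ≤ ‖e c ^ (kw - k)‖ * (‖N c₀‖ + 1) := by gcongr
      _ = ‖e c ^ (kw - k)‖ * (‖N c₀‖ + 1) * 1 := by ring
      _ ≤ ‖e c ^ (kw - k)‖ * (‖N c₀‖ + 1) * (2 / ‖U c₀‖ * ‖U c‖) := by gcongr
      _ = (‖N c₀‖ + 1) * (2 / ‖U c₀‖) * (‖e c ^ (kw - k)‖ * ‖U c‖) := by ring
  have key2 : ∀ᶠ c in 𝓝 c₀, e c ≠ 0 → w c ≠ 0 := by
    filter_upwards [hwU, hUa.continuousAt.eventually_ne hU0] with c g1 g2 g3
    rw [g1 g3]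
    exact mul_ne_zero (pow_ne_zero _ g3) g2
  exact ⟨b, a, (‖N c₀‖ + 1) * (2 / ‖U c₀‖), by positivity, key2, key, hT0⟩

end Flag

end Vale.Agent.P281.H308.TM
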